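import Vale.Agent.P281.H603.C.Spec

/-!
# P281, T-Delta for fibrations in the class C (helper603): block M6a, bounds on slices defined off a
null set
-/

open Set Filter Metric MeasureTheory Vale.Agent.P281 Vale.Agent.P281.H713 Vale.Agent.P272.K
open scoped Topology ContDiff Manifold ComplexConjugate


noncomputable section

namespace Vale.Agent.P281.H603.C

/-- `q : A → E` is holomorphic, and induces an injective map to `E / Γ`. -/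
structure PolyInA {d : ℕ} {E Γ : Type} [TopologicalSpace E] [Group Γ] [MulAction Γ E]
    (S : H64.TK.Sheets d E Γ) (q : Cm d → E) (A : Set (Cm d)) : Prop where
  hol : ∀ v ∈ A, ∀ i, ∀ z ∈ ball (0 : Cm d) 3, ∀ γ : Γ, q v = γ • S.σ i z →
    ∃ θ : Cm d → Cm d, AnalyticAt ℂ θ v ∧ θ v = z ∧ ∀ᶠ u in 𝓝 v, q u = γ • S.σ i (θ u)
  inj : ∀ v ∈ A, ∀ v' ∈ A, ∀ γ : Γ, q v = γ • q v' → v = v'

/-- `|ξ|² ≤ K |dq ξ|²_w` for `q : A → E`. -/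
def TameInA {d : ℕ} {E Γ : Type} [TopologicalSpace E] [Group Γ] [MulAction Γ E]
    (S : H64.TK.Sheets d E Γ) (w : Fin S.N → Cm d → Matrix (Fin d) (Fin d) ℂ) (K : ℝ) (q : Cm d → E)
    (A : Set (Cm d)) : Prop :=
  ∀ v ∈ A, ∀ i, ∀ z ∈ ball (0 : Cm d) 3, ∀ (γ : Γ) (θ : Cm d → Cm d), AnalyticAt ℂ θ v →
    θ v = z → (∀ᶠ u in 𝓝 v, q u = γ • S.σ i (θ u)) → ∀ ξ : Cm d,
    ‖ξ‖ ^ 2 ≤ K * (∑ j, ∑ k, w i z j k * fderiv ℂ θ v ξ j * conj (fderiv ℂ θ v ξ k)).re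

/-- **M6a** (`H64.TU.TameBoundStmt`, `H485/U/Grad.lean`, for slices defined off a null set). -/
def TameBoundAStmt : Prop :=
  ∀ (d : ℕ) (r K : ℝ), 0 < d → 0 < r → 0 < K → ∃ B : ℝ, ∀ (E Γ : Type) [TopologicalSpace E]
    [T2Space E] [SimplyConnectedSpace E] [Group Γ] [MulAction Γ E] [ContinuousConstSMul Γ E]
    (S : H64.TK.Sheets d E Γ) (w : Fin S.N → Cm d → Matrix (Fin d) (Fin d) ℂ) (h : E → ℂ) (c : Γ → ℂ),
    H64.TK.Kah S w → H64.TK.Add S h c → (S.herm w h h).re ≤ 1 → ∀ (q : Cm d → E) (H : Cm d → ℂ)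
    (v₀ : Cm d) (A : Set (Cm d)), IsOpen A → A ⊆ ball v₀ r → volume (ball v₀ r \ A) = 0 →
    PolyInA S q A → TameInA S w K q A → DifferentiableOn ℂ H (ball v₀ r) →
    (∀ v ∈ A, ∀ᶠ s in 𝓝 v, H s = h (q s)) →
    ∀ v ∈ ball v₀ (r / 2), ‖fderiv ℂ H v‖ ≤ B

end Vale.Agent.P281.H603.C
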