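import Vale.Agent.P281.H603.C.Geo
import Vale.Agent.P281.H603.C.SpecB
import Vale.Agent.P281.H603.TE.AlbC

/-!
# P281, class C (helper603): the local data of `f`, which descend from a model `f₁`
-/

open Set Filter Metric MeasureTheory Vale.Agent.P281 Vale.Agent.P281.H713 Vale.Agent.P272.K
open scoped Topology ContDiff Manifold ComplexConjugate

set_option linter.unusedSectionVars false

noncomputable section

namespace Vale.Agent.P281.H603.C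

open Vale.Agent.P281.H64 (Mark Qf IsProperFibration)
open Vale.Agent.P281.H64.TK Vale.Agent.P281.H603.K Vale.Agent.P281.H864.K
open Vale.Agent.P281.H603.TE Vale.Agent.P281.H603.KodN
open Vale.Agent.P281.H64.Gen (excSet IsSmall2 IsSmallSet)
open Vale.Agent.P281.H64.TU (Tame)
open Vale.Agent.P281.H64.TK.TE (NDegE)

/-- `MTame`, for immersed slices -/
def CTame {n d : ℕ} {X X₁ : Type} [TopologicalSpace X] [TopologicalSpace X₁]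
    [ChartedSpace (Cm n) X] [ChartedSpace (Cm n) X₁] (u : X₁ → X)
    (w : Chart n X₁ → Cm n → Matrix (Fin n) (Fin n) ℂ) : Tame (Cm d) X := fun K q v₀ r =>
  MTame u w K q v₀ r ∧
    ∀ v ∈ ball v₀ r, ∀ ξ, mfderiv 𝓘(ℂ, Cm d) 𝓘(ℂ, Cm n) q v ξ = 0 → ξ = 0

section
variable {p d : ℕ} {Z Y : Type} [TopologicalSpace Z] [T2Space Z] [ChartedSpace (Cm (p + d)) Z]
  [IsManifold 𝓘(ℂ, Cm (p + d)) ω Z] [TopologicalSpace Y] [T2Space Y] [ChartedSpace (Cm p) Y]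
  [IsManifold 𝓘(ℂ, Cm p) ω Y]

/-- A model `f₁ : Z₁ → Y₁` of `f : Z → Y`, with a metric. -/
structure Ctx (f : Z → Y) where
  Z₁ : Type
  Y₁ : Type
  [tZ : TopologicalSpace Z₁]
  [t2Z : T2Space Z₁]
  [coZ : CompactSpace Z₁]
  [cZ : ChartedSpace (Cm (p + d)) Z₁]
  [mZ : IsManifold 𝓘(ℂ, Cm (p + d)) ω Z₁]
  [tY : TopologicalSpace Y₁]
  [t2Y : T2Space Y₁]
  [cY : ChartedSpace (Cm p) Y₁]
  [mY : IsManifold 𝓘(ℂ, Cm p) ω Y₁]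
  f₁ : Z₁ → Y₁
  u : Z₁ → Z
  v : Y₁ → Y
  w : Chart (p + d) Z₁ → Cm (p + d) → Matrix (Fin (p + d)) (Fin (p + d)) ℂ

attribute [instance] Ctx.tZ Ctx.t2Z Ctx.coZ Ctx.cZ Ctx.mZ Ctx.tY Ctx.t2Y Ctx.cY Ctx.mY

/-- the exceptional locus of `u` in `Z` -/
def Ctx.N {f : Z → Y} (C : Ctx (p := p) (d := d) f) : Set Z := C.u '' excSet (Cm (p + d)) C.u

structure Ctx.Ok {f : Z → Y} (C : Ctx (p := p) (d := d) f) : Prop where
  kah : IsKahler C.w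
  hf : ContMDiff 𝓘(ℂ, Cm (p + d)) 𝓘(ℂ, Cm p) ω f
  hf₁ : ContMDiff 𝓘(ℂ, Cm (p + d)) 𝓘(ℂ, Cm p) ω C.f₁
  hu : ContMDiff 𝓘(ℂ, Cm (p + d)) 𝓘(ℂ, Cm (p + d)) ω C.u
  hv : ContMDiff 𝓘(ℂ, Cm p) 𝓘(ℂ, Cm p) ω C.v
  mu : Mod0 (n := p + d) C.u
  mv : Mod0 (n := p) C.v
  small : IsSmall2 (Cm (p + d)) C.N
  dense : Dense (excSet (Cm (p + d)) C.u)ᶜ
  comm : ∀ x, f (C.u x) = C.v (C.f₁ x)

/-- `f` and `f₁` off `S` -/
structure Ctx.Good {f : Z → Y} (C : Ctx (p := p) (d := d) f) (S : Set Y) (S₁ : Set C.Y₁) :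
    Prop where
  prop : IsProperFibration (n := p + d) (p := p) f S
  prop₁ : IsProperFibration (n := p + d) (p := p) C.f₁ S₁
  conn : IsPreconnected Sᶜ
  conn₁ : IsPreconnected S₁ᶜ
  off : ∀ y ∉ S, y ∉ C.v '' excSet (Cm p) C.v
  off₁ : ∀ y₁, C.v y₁ ∉ S → y₁ ∉ S₁

/-- the additive functions `F t` descend from those of `L₁`, by `V : E₁ → E` -/
structure IsDesc {f : Z → Y} {E Γ : Type} [TopologicalSpace E] [Group Γ] [MulAction Γ E]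
    [ContinuousConstSMul Γ E] {m n g : ℕ} {B : Matrix (Fin n) (Fin n) ℝ}
    (C : Ctx (p := p) (d := d) f) (q : Cm p → E → Z) (χ : OpenPartialHomeomorph Y (Cm p))
    (M : Mark (core Γ m) n) (F : Cm p → E → Fin g → ℂ) (c : Cm p → core Γ m → Fin g → ℂ)
    (t : Cm p) (L₁ : DLocE (p := p) (d := d) C.f₁ C.w m B g) (t₁ : Cm p) (V : L₁.E → E)
    (ρ : L₁.Γ ≃* Γ) : Prop where
  mem : t₁ ∈ L₁.T'
  off : L₁.χ.symm t₁ ∉ excSet (Cm p) C.v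
  base : C.v (L₁.χ.symm t₁) = χ.symm t
  cont : Continuous V
  surj : Function.Surjective V
  smul : ∀ γ e, V (γ • e) = ρ γ • V e
  comm : ∀ e, q t (V e) = C.u (L₁.q t₁ e)
  hF : ∀ e, F t (V e) = L₁.F t₁ e
  hc : ∀ κ : core L₁.Γ m, c t (res ρ (fun _ => map_core ρ m) κ) = L₁.c t₁ κ
  hM : M = L₁.M.map (res ρ fun _ => map_core ρ m)

/-- Local data of `f`: a holomorphic basis `F t` of the additive functions, with periods `c t`, which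
descends from the local data of `f₁`. -/
structure DLocC {f : Z → Y} (C : Ctx (p := p) (d := d) f) (m : ℕ) {n : ℕ}
    (B : Matrix (Fin n) (Fin n) ℝ) (g : ℕ) where
  E : Type
  Γ : Type
  [tE : TopologicalSpace E]
  [t2 : T2Space E]
  [sc : SimplyConnectedSpace E]
  [gr : Group Γ]
  [act : MulAction Γ E]
  [ct : ContinuousConstSMul Γ E]
  [fin : (core Γ m).FiniteIndex]
  𝓕 : Fam p d E Γ
  q : Cm p → E → Z
  χ : OpenPartialHomeomorph Y (Cm p)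
  model : Model (n := p + d) f 𝓕 χ q
  M : Mark (core Γ m) n
  T' : Set (Cm p)
  hT' : T' ⊆ 𝓕.T
  isOpen' : IsOpen T'
  F : Cm p → E → Fin g → ℂ
  c : Cm p → core Γ m → Fin g → ℂ
  bas : ∀ (t : Cm p) (ht : t ∈ T'), IsBas (sub (𝓕.at t (hT' ht)) (core Γ m)) (F t) (c t)
  holF : ∀ i, ∀ t ∈ T', ∀ z ∈ ball (0 : Cm d) 3, ∀ j,
    AnalyticAt ℂ (fun q : Cm p × Cm d => F q.1 ((fsub 𝓕 (core Γ m)).σ i q.1 q.2) j) (t, z)
  holc : ∀ γ j, ∀ t ∈ T', AnalyticAt ℂ (fun s => c s γ j) t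
  desc : ∀ t ∈ T', ∃ (L₁ : DLocE (p := p) (d := d) C.f₁ C.w m B g) (t₁ : Cm p) (V : L₁.E → E)
    (ρ : L₁.Γ ≃* Γ), IsDesc C q χ M F c t L₁ t₁ V ρ

attribute [instance] DLocC.tE DLocC.t2 DLocC.sc DLocC.gr DLocC.act DLocC.ct DLocC.fin

end

/-- **CN** (null set): the exceptional locus is a null set in the fibres. -/
def NullStmt : Prop :=
  ∀ (p d : ℕ) (Z Y : Type) [TopologicalSpace Z] [T2Space Z] [ChartedSpace (Cm (p + d)) Z]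
    [IsManifold 𝓘(ℂ, Cm (p + d)) ω Z] [TopologicalSpace Y] [T2Space Y] [ChartedSpace (Cm p) Y]
    [IsManifold 𝓘(ℂ, Cm p) ω Y] (f : Z → Y) (C : Ctx (p := p) (d := d) f)
    (E Γ : Type) [TopologicalSpace E] [Group Γ] [MulAction Γ E] [ContinuousConstSMul Γ E]
    (𝓕 : Fam p d E Γ) (q : Cm p → E → Z) (χ : OpenPartialHomeomorph Y (Cm p))
    (E₁ Γ₁ : Type) [TopologicalSpace E₁] [Group Γ₁] [MulAction Γ₁ E₁] [ContinuousConstSMul Γ₁ E₁]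
    (𝓕₁ : Fam p d E₁ Γ₁) (q₁ : Cm p → E₁ → C.Z₁) (χ₁ : OpenPartialHomeomorph C.Y₁ (Cm p))
    (t t₁ : Cm p), C.Ok → Model (n := p + d) f 𝓕 χ q → Model (n := p + d) C.f₁ 𝓕₁ χ₁ q₁ →
    t ∈ 𝓕.T → t₁ ∈ 𝓕₁.T → χ₁.symm t₁ ∉ excSet (Cm p) C.v → C.v (χ₁.symm t₁) = χ.symm t →
    ∀ i, volume {z : Cm d | z ∈ ball (0 : Cm d) 3 ∧ q t (𝓕.σ i t z) ∈ C.N} = 0

/-- **C1** (existence) -/
def DGlobCStmt : Prop :=
  ∀ (p d m : ℕ) (Z Y : Type) [TopologicalSpace Z] [T2Space Z] [ChartedSpace (Cm (p + d)) Z]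
    [IsManifold 𝓘(ℂ, Cm (p + d)) ω Z] [TopologicalSpace Y] [T2Space Y] [ChartedSpace (Cm p) Y]
    [IsManifold 𝓘(ℂ, Cm p) ω Y] (f : Z → Y) (C : Ctx (p := p) (d := d) f) (S : Set Y)
    (S₁ : Set C.Y₁), 0 < d → C.Ok → C.Good S S₁ → Sᶜ.Nonempty →
    ∃ (n g : ℕ) (_ : n = 2 * g) (B : Matrix (Fin n) (Fin n) ℝ),
      ∀ y₀ ∉ S, ∃ L : DLocC C m B g, y₀ ∈ L.χ.source ∧ L.χ y₀ ∈ L.T' ∧ ∀ t ∈ L.T', L.χ.symm t ∉ S

/-- **C3** (bounds) -/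
def BoundCStmt : Prop :=
  ∀ (p d m n g : ℕ) (Z Y : Type) [TopologicalSpace Z] [T2Space Z] [ChartedSpace (Cm (p + d)) Z]
    [IsManifold 𝓘(ℂ, Cm (p + d)) ω Z] [TopologicalSpace Y] [T2Space Y] [ChartedSpace (Cm p) Y]
    [IsManifold 𝓘(ℂ, Cm p) ω Y] (f : Z → Y) (C : Ctx (p := p) (d := d) f)
    (B : Matrix (Fin n) (Fin n) ℝ) (r K : ℝ), 0 < d → n = 2 * g → C.Ok → 0 < r → 0 < K →
    ∃ A : ℝ, ∀ (L : DLocC C m B g) (t : Cm p) (ht : t ∈ L.T') (q : Cm d → Z) (q' : Cm d → L.E)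
      (v₀ : Cm d), IsPolydisc (Cm (p + d)) f q v₀ r → CTame C.u C.w K q v₀ r →
      (∀ v ∈ ball v₀ r, L.q t (q' v) = q v) → PolyIn (L.𝓕.at t (L.hT' ht)) q' v₀ r →
      ∀ (π : (Fin n → ℝ) ≃L[ℝ] EuclideanSpace ℂ (Fin g)), (∀ x, π x = perMap L.M (L.c t) x) →
      ∀ G : EuclideanSpace ℂ (Fin g) ≃L[ℂ] EuclideanSpace ℂ (Fin g),
        (∀ x x', (inner ℂ (G (π x)) (G (π x'))).im = Qf B x x') →
        ∀ v ∈ ball v₀ (r / 2),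
          ‖fderiv ℂ (fun u => G (WithLp.toLp 2 (L.F t (q' u)))) v‖ ≤ A

/-- **C5** (nondegeneracy) -/
def DegCStmt : Prop :=
  ∀ (p d m r : ℕ) (Z Y : Type) [TopologicalSpace Z] [T2Space Z] [CompactSpace Z]
    [ChartedSpace (Cm (p + d)) Z]
    [IsManifold 𝓘(ℂ, Cm (p + d)) ω Z] [TopologicalSpace Y] [T2Space Y] [ChartedSpace (Cm p) Y]
    [IsManifold 𝓘(ℂ, Cm p) ω Y] (f : Z → Y) (C : Ctx (p := p) (d := d) f) (S : Set Y)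
    (S₁ : Set C.Y₁), 0 < d → C.Ok → Function.Surjective C.f₁ → TZ.S.IsModif (Cm p) C.v →
    C.Good S S₁ → IsSmallSet (Cm p) S → IsSmallSet (Cm p) S₁ →
    (∃ y ∉ S, NDegE (p + d) p d m r f y) →
    ∃ S', S ⊆ S' ∧ IsSmallSet (Cm p) S' ∧ ∀ y ∉ S', NDegE (p + d) p d m r f y

end Vale.Agent.P281.H603.C
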