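import Vale.Agent.P281.H603.C.AlbB

/-!
# P281, class C (helper603), block C2: change of the local data
-/

open Set Filter Metric MeasureTheory Vale.Agent.P281 Vale.Agent.P281.H713 Vale.Agent.P272.K
open scoped Topology ContDiff Manifold ComplexConjugate

set_option linter.unusedSectionVars false

noncomputable section

namespace Vale.Agent.P281.H603.C

open Vale.Agent.P281.H64 (Mark Qf Qf_eq bil_eq linV linV_apply)
open Vale.Agent.P281.H64.TK Vale.Agent.P281.H603.K Vale.Agent.P281.H864.K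
open Vale.Agent.P281.H603.TE Vale.Agent.P281.H603.KodN

attribute [local instance] ccs

variable {p d : ℕ} {Z Y : Type} [TopologicalSpace Z] [T2Space Z] [ChartedSpace (Cm (p + d)) Z]
  [IsManifold 𝓘(ℂ, Cm (p + d)) ω Z] [TopologicalSpace Y] [T2Space Y] [ChartedSpace (Cm p) Y]
  [IsManifold 𝓘(ℂ, Cm p) ω Y] {f : Z → Y} {C : Ctx (p := p) (d := d) f} {m n g : ℕ}
  {B : Matrix (Fin n) (Fin n) ℝ}

/-- the point of `Y₁` over `y` -/
theorem IsDesc.base_eq {E Γ E' Γ' : Type} [TopologicalSpace E] [Group Γ] [MulAction Γ E]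
    [ContinuousConstSMul Γ E] [TopologicalSpace E'] [Group Γ'] [MulAction Γ' E']
    [ContinuousConstSMul Γ' E'] {g' : ℕ} (hC : C.Ok)
    {q : Cm p → E → Z} {χ : OpenPartialHomeomorph Y (Cm p)} {M : Mark (core Γ m) n}
    {F : Cm p → E → Fin g → ℂ} {c : Cm p → core Γ m → Fin g → ℂ} {t : Cm p}
    {L₁ : DLocE (p := p) (d := d) C.f₁ C.w m B g} {t₁ : Cm p} {V : L₁.E → E} {ρ : L₁.Γ ≃* Γ}
    {q' : Cm p → E' → Z} {χ' : OpenPartialHomeomorph Y (Cm p)} {M' : Mark (core Γ' m) n}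
    {F' : Cm p → E' → Fin g' → ℂ} {c' : Cm p → core Γ' m → Fin g' → ℂ} {t' : Cm p}
    {L₁' : DLocE (p := p) (d := d) C.f₁ C.w m B g'} {t₁' : Cm p} {V' : L₁'.E → E'}
    {ρ' : L₁'.Γ ≃* Γ'} (h : IsDesc C q χ M F c t L₁ t₁ V ρ)
    (h' : IsDesc C q' χ' M' F' c' t' L₁' t₁' V' ρ') (hy : χ.symm t = χ'.symm t') :
    L₁.χ.symm t₁ = L₁'.χ.symm t₁' :=
  hC.mv.inj _ _ (by rw [h.base, h'.base, hy]) h.off

/-- **Block C2** -/
theorem DLocC.change (I : Inputs) (hd : 0 < d) (hn : n = 2 * g) (hC : C.Ok)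
    (L L' : DLocC C m B g) (D D' : (Fin n → ℝ) ≃L[ℝ] EuclideanSpace ℂ (Fin g)) {y : Y}
    (hy : y ∈ L.U) (hy' : y ∈ L'.U) {τ : L.E ≃ₜ L'.E} {ρ : L.Γ ≃* L'.Γ}
    (_hτ : ∀ γ e, τ (γ • e) = ρ γ • τ e)
    (hq : ∀ e, L'.q (L'.χ y) (τ e) = L.q (L.χ y) e) :
    ∃ (G : EuclideanSpace ℂ (Fin g) ≃L[ℂ] EuclideanSpace ℂ (Fin g)) (b : EuclideanSpace ℂ (Fin g)),
      IsPeriodChange (Qf B) (L.π D y) (L'.π D' y) G ∧
        ∀ e, (WithLp.toLp 2 (L'.F (L'.χ y) (τ e)) : EuclideanSpace ℂ (Fin g)) =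
          G (WithLp.toLp 2 (L.F (L.χ y) e)) + b := by
  obtain ⟨L₁, t₁, V, σ, h⟩ := L.desc _ hy.2
  obtain ⟨L₁', t₁', V', σ', h'⟩ := L'.desc _ hy'.2
  have hyy : L.χ.symm (L.χ y) = L'.χ.symm (L'.χ y) := by rw [L.left_inv hy, L'.left_inv hy']
  obtain ⟨τ₁, ρ₁, hq₁, hc, -⟩ := compareE I hd hC.hf₁ hC.kah L₁.model L₁'.model L₁.pull L₁'.pull
    (L₁.hT' h.mem) (L₁'.hT' h'.mem) (h.base_eq hC h' hyy) m
  obtain ⟨e₀⟩ : Nonempty L₁.E := inferInstance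
  have ht' := L'.hT' hy'.2
  -- correction of `τ₁`
  have k4 : L'.q (L'.χ y) (V' (τ₁ e₀)) = L'.q (L'.χ y) (τ (V e₀)) := by
    rw [h'.comm, hq₁, ← h.comm, hq]
  obtain ⟨δ', hδ'⟩ := (L'.model.eq _ ht' _ _).1 k4
  set δ := σ'.symm δ' with hδ
  have hc' := hc.smul δ
  set τ₁' := τ₁.trans (Homeomorph.smul δ) with hτ₁'
  have e1 : ∀ e, τ₁' e = δ • τ₁ e := fun e => rfl
  have e2 : ∀ e, V' (τ₁' e) = δ' • V' (τ₁ e) := fun e => by
    rw [e1, h'.smul, hδ, σ'.apply_symm_apply]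
  have hcov := L'.model.cov _ ht'
  have key : V' ∘ τ₁' = τ ∘ V := by
    refine hcov.eq_of_comp_eq (h'.cont.comp τ₁'.continuous) (τ.continuous.comp h.cont) ?_ e₀ ?_
    · funext e
      apply Subtype.ext
      show L'.q (L'.χ y) (V' (τ₁' e)) = L'.q (L'.χ y) (τ (V e))
      rw [e2, L'.q_smul hy' δ', h'.comm, hq₁, ← h.comm, hq]
    · show V' (τ₁' e₀) = τ (V e₀)
      rw [e2, hδ']
  have hcK := hc'.sub (K := core L₁.Γ m) (K' := core L₁'.Γ m)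
    fun _ => map_core (ρ₁.trans (MulAut.conj δ)) m
  obtain ⟨hB, -⟩ := L₁.F2_at I.f2 hd hn h.mem
  obtain ⟨G, b, hG, hGF⟩ := hcK.change I hd (kah_fW _ L₁.kfam (L₁.hT' h.mem))
    (kah_fW _ L₁'.kfam (L₁'.hT' h'.mem)) (L₁.form _ (L₁.hT' h.mem))
    (L₁'.form _ (L₁'.hT' h'.mem)) hB (L₁.bas _ h.mem) (L₁'.bas _ h'.mem) (π := L.π D y)
    (π' := L'.π D' y) (fun x => by rw [DLocC.π_spec I.f2 hd hn D hy, h.perMap_eq])
    (fun x => by rw [DLocC.π_spec I.f2 hd hn D' hy', h'.perMap_eq])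
  refine ⟨G, b, hG, fun e => ?_⟩
  obtain ⟨e₁, rfl⟩ := h.surj e
  have h5 : τ (V e₁) = V' (τ₁' e₁) := (congrFun key e₁).symm
  rw [h5, h'.hF, h.hF]
  exact hGF e₁

end Vale.Agent.P281.H603.C
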