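import Vale.Agent.P281.H603.C.Hol
import Vale.Agent.P281.H603.C.Change

/-!
# P281, class C (helper603), block C1: existence of the local data
-/

open Set Filter Metric Vale.Agent.P281 Vale.Agent.P281.H713 Vale.Agent.P281.ISO
open scoped Topology ContDiff Manifold

set_option linter.unusedSectionVars false

noncomputable section

namespace Vale.Agent.P281.H603.C

open Vale.Agent.P281.H64.TK Vale.Agent.P281.H603.K Vale.Agent.P281.H603.TE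
open Vale.Agent.P281.H603.KodN Vale.Agent.P281.H64.Gen Vale.Agent.P272.K

section
variable {p d : ℕ} {X X₁ Y Y₁ : Type} [TopologicalSpace X] [T2Space X] [ChartedSpace (Cm (p + d)) X]
  [TopologicalSpace X₁] [ChartedSpace (Cm (p + d)) X₁] [TopologicalSpace Y]
  [ChartedSpace (Cm p) Y] [TopologicalSpace Y₁] [ChartedSpace (Cm p) Y₁]
  {E Γ E₁ Γ₁ : Type} [TopologicalSpace E] [Group Γ] [MulAction Γ E] [ContinuousConstSMul Γ E]
  [TopologicalSpace E₁] [Group Γ₁] [MulAction Γ₁ E₁] [ContinuousConstSMul Γ₁ E₁]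
  [IsManifold 𝓘(ℂ, Cm (p + d)) ω X] [IsManifold 𝓘(ℂ, Cm (p + d)) ω X₁]
  [IsManifold 𝓘(ℂ, Cm p) ω Y] [IsManifold 𝓘(ℂ, Cm p) ω Y₁]
  {f : X → Y} {f₁ : X₁ → Y₁} {u : X₁ → X} {v : Y₁ → Y} {hv : Mod0 (n := p) v}
  {𝓕 : Fam p d E Γ} {q : Cm p → E → X} {χ : OpenPartialHomeomorph Y (Cm p)}
  {𝓕₁ : Fam p d E₁ Γ₁} {q₁ : Cm p → E₁ → X₁} {χ₁ : OpenPartialHomeomorph Y₁ (Cm p)}
  {B : Set (Cm p)} {L : Tot B E₁ → Tot B E}

/-- the descended function -/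
theorem IsPr.exists_desc (h : IsPr f f₁ u hv 𝓕 q χ 𝓕₁ q₁ χ₁ B)
    (hf₁ : ContMDiff 𝓘(ℂ, Cm (p + d)) 𝓘(ℂ, Cm p) ω f₁) (hd : Dense (excSet (Cm (p + d)) u)ᶜ)
    (hN : IsSmall2 (Cm (p + d)) (u '' excSet (Cm (p + d)) u))
    (hL : IsL q (fun t e => q₁ (par hv χ χ₁ t) e) u L) (hs : Function.Surjective L)
    (hinj : ∀ x x', L x = L x' → q₁ (par hv χ χ₁ x.1) x.2 ∉ excSet (Cm (p + d)) u → x = x')
    {A₁ : Cm p → E₁ → ℂ} (hA : IsHolA hv χ χ₁ 𝓕₁ B A₁) :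
    ∃ A : Cm p → E → ℂ, (∀ t (ht : t ∈ B) e, A t (Vt L ht e) = A₁ (par hv χ χ₁ t) e) ∧
      ∀ t ∈ B, ∀ i, ∀ z ∈ ball (0 : Cm d) 3, ∀ γ : Γ,
        AnalyticAt ℂ (fun r : Cm p × Cm d => A r.1 (γ • 𝓕.σ i r.1 r.2)) (t, z) := by
  classical
  have hpar : ∀ x : Tot B E₁, par hv χ χ₁ x.1 = par hv χ χ₁ (L x).1 := fun x => by
    rw [hL.fst h.tot h.tot₁ x]
  refine ⟨fun t e => if ht : t ∈ B then
    A₁ (par hv χ χ₁ t) (Function.surjInv hs (⟨t, ht⟩, e)).2 else 0, ?_, ?_⟩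
  · intro t ht e
    refine (dif_pos ht).trans ?_
    obtain ⟨Φ, -, h2⟩ := h.descend hf₁ hd hN hL hs hinj hA (L (⟨t, ht⟩, e))
    have h3 := h2.self_of_nhds
    have h4 := h3 _ (rfl : L (⟨t, ht⟩, e) = L (⟨t, ht⟩, e))
    set y : Tot B E := (⟨t, ht⟩, Vt L ht e) with hy
    have h7 : L (Function.surjInv hs y) = y := Function.surjInv_eq hs y
    have h6 : L (Function.surjInv hs y) = L (⟨t, ht⟩, e) := h7.trans (h.Vt_eq hL ht e).symm
    have h5 := h3 _ h6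
    have hp : par hv χ χ₁ (Function.surjInv hs y).1 = par hv χ χ₁ t :=
      (hpar _).trans (congrArg (fun y : Tot B E => par hv χ χ₁ y.1) h7)
    exact (congrArg (fun s => A₁ s (Function.surjInv hs y).2) hp.symm).trans (h5.trans h4.symm)
  · intro t ht i z hz γ
    refine h.hol_of_loc (A := fun t e => if ht : t ∈ B then
      A₁ (par hv χ χ₁ t) (Function.surjInv hs (⟨t, ht⟩, e)).2 else 0) ht i hz γ ?_
    obtain ⟨Φ, h1, h2⟩ := h.descend hf₁ hd hN hL hs hinj hA (⟨t, ht⟩, γ • 𝓕.σ i t z)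
    refine ⟨Φ, h1, ?_⟩
    filter_upwards [h2] with y hy
    have h3 := hy (Function.surjInv hs y) (Function.surjInv_eq hs y)
    have h4 : par hv χ χ₁ (Function.surjInv hs y).1 = par hv χ χ₁ y.1 := by
      rw [hpar, Function.surjInv_eq hs y]
    rw [h4] at h3
    exact (dif_pos y.1.2).trans h3

end

/-- **Block C1** -/
theorem dglobC (hSec : SecStmt) (hCI : CovInjStmt) (I : Inputs) : DGlobCStmt := by
  classical
  intro p d m Z Y _ _ _ _ _ _ _ _ f C S S₁ hd hC hG hne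
  obtain ⟨y₂, hy₂⟩ := hne
  have hS₁ : ∀ y ∉ S, inv0 hC.mv y ∉ S₁ := fun y hy => hG.off₁ _ (by
    rw [u_inv0 hC.mv]
    exact hy)
  obtain ⟨n, g, hn, B, hLoc⟩ := dglobE I hd m hC.hf₁ hC.kah hG.prop₁ hG.conn₁ (hS₁ y₂ hy₂)
  refine ⟨n, g, hn, B, fun y₀ hy₀ => ?_⟩
  obtain ⟨L₁, hs₁, hT₁, -⟩ := hLoc _ (hS₁ y₀ hy₀)
  obtain ⟨E, Γ, _, _, _, _, _, _, 𝓕, q, hM, ht₀, hSS⟩ := I.ab p d Z Y f S hd hC.hf hG.prop y₀ hy₀
  have hfin : (core Γ m).FiniteIndex := coreS d m E Γ (𝓕.at _ ht₀) hd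
  set χ := chartAt (Cm p) y₀ with hχ
  have hy₀s : y₀ ∈ χ.source := mem_chart_source _ _
  have hoff : ∀ y ∉ S, inv0 hC.mv y ∉ excSet (Cm p) C.v := by
    intro y hy hcon
    exact hG.off y hy ⟨_, hcon, u_inv0 hC.mv y⟩
  -- the ball
  have hO : {t | t ∈ 𝓕.T ∧ inv0 hC.mv (χ.symm t) ∈ L₁.χ.source ∧
      L₁.χ (inv0 hC.mv (χ.symm t)) ∈ L₁.T'} ∈ 𝓝 (χ y₀) := by
    have h1 : Tendsto (inv0 hC.mv) (𝓝 y₀) (𝓝 (inv0 hC.mv y₀)) := by
      have h2 := tendsto_inv0 hC.mv (hoff y₀ hy₀)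
      rwa [u_inv0 hC.mv] at h2
    have h3 : Tendsto χ.symm (𝓝 (χ y₀)) (𝓝 y₀) := by
      have h4 := (χ.continuousAt_symm (χ.map_source hy₀s)).tendsto
      rwa [χ.left_inv hy₀s] at h4
    have h5 : L₁.χ.source ∩ L₁.χ ⁻¹' L₁.T' ∈ 𝓝 (inv0 hC.mv y₀) :=
      (L₁.χ.isOpen_inter_preimage L₁.isOpen').mem_nhds ⟨hs₁, hT₁⟩
    filter_upwards [𝓕.isOpen.mem_nhds ht₀, (h1.comp h3) h5] with t a b
    exact ⟨a, b.1, b.2⟩
  obtain ⟨r, hr, hball⟩ := Metric.mem_nhds_iff.1 hO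
  have hPr : IsPr f C.f₁ C.u hC.mv 𝓕 q χ L₁.𝓕 L₁.q L₁.χ (ball (χ y₀) r) :=
    { hf := hC.hf.continuous
      hf₁ := hC.hf₁.continuous
      mu := hC.mu
      comm := hC.comm
      M := hM
      M₁ := L₁.model
      convex := convex_ball _ _
      isOpen := isOpen_ball
      ne := ⟨_, mem_ball_self hr⟩
      sub := fun t ht => (hball ht).1
      off := fun t ht => hG.off _ (hSS t (hball ht).1)
      sub₁ := fun t ht => ⟨(hball ht).2.1, L₁.hT' (hball ht).2.2⟩ }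
  have i1 : SimplyConnectedSpace (Tot (ball (χ y₀) r) E) := simply hPr.convex hPr.ne
  have i2 : SimplyConnectedSpace (Tot (ball (χ y₀) r) L₁.E) := simply hPr.convex hPr.ne
  obtain ⟨L, hL⟩ := hPr.exists_L
  obtain ⟨ρ, hρ⟩ := hL.hom hPr.tot hPr.tot₁
  have hOu : IsOpen (C.u ⁻¹' IsPr.Z₀ f χ (ball (χ y₀) r)) :=
    hPr.isOpen_Z₀.preimage (Md.of hPr.mu).cont
  obtain ⟨hbij, hs, hinj⟩ := hL.bij hCI (n := p + d) hPr.tot hPr.tot₁ (Md.of hPr.mu) hρ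
    (fun z => hPr.tot.charts hPr.isOpen_Z₀ hC.small z)
    (hPr.tot.preconn_small2 hSec hPr.isOpen_Z₀ hC.small)
    (hPr.tot₁.preconn_hyp (n := p + d) hOu hC.mu.eclosed hC.dense
      fun x => exc_local fun z => hC.mu.hol z) (by
      obtain ⟨x⟩ : Nonempty (Tot (ball (χ y₀) r) L₁.E) := inferInstance
      obtain ⟨x', -, hx'⟩ := hPr.dense₁ hC.dense x univ_mem
      exact ⟨x', hx'⟩)
  set ρ' : L₁.Γ ≃* Γ := MulEquiv.ofBijective ρ hbij with hρ'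
  have hρe : ∀ γ x, L (γ • x) = ρ' γ • L x := fun γ x => hρ γ x
  have hT' : ∀ t ∈ ball (χ y₀) r, par hC.mv χ L₁.χ t ∈ L₁.T' := fun t ht => (hball ht).2.2
  choose A hA1 hA2 using fun j : Fin g => hPr.exists_desc hC.hf₁ hC.dense hC.small hL hs hinj
    (A₁ := fun t e => L₁.F t e j) fun t ht i z hz γ => DLocE.holF' γ i (hT' t ht) hz j
  set R := res (K := core L₁.Γ m) (K' := core Γ m) ρ' (fun _ => map_core ρ' m) with hR
  have hc : ∀ (t : Cm p) (κ : core L₁.Γ m), L₁.c (par hC.mv χ L₁.χ t) (R.symm (R κ)) =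
      L₁.c (par hC.mv χ L₁.χ t) κ := fun t κ => by rw [R.symm_apply_apply]
  have hsm : ∀ t (ht : t ∈ ball (χ y₀) r) (κ : core L₁.Γ m) e,
      Vt L ht (κ • e) = R κ • Vt L ht e := fun t ht κ e =>
    congrArg Prod.snd (hρe (κ : L₁.Γ) (⟨t, ht⟩, e))
  refine ⟨{
    E := E
    Γ := Γ
    fin := hfin
    𝓕 := 𝓕
    q := q
    χ := χ
    model := hM
    M := L₁.M.map R
    T' := ball (χ y₀) r
    hT' := fun t ht => hPr.sub ht
    isOpen' := isOpen_ball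
    F := fun t e j => A j t e
    c := fun t κ => L₁.c (par hC.mv χ L₁.χ t) (R.symm κ)
    bas := fun t ht => ?_
    holF := fun i t ht z hz j => ?_
    holc := fun κ j t ht => ?_
    desc := fun t ht => ⟨L₁, par hC.mv χ L₁.χ t, Vt L ht, ρ', ?_⟩ }, hy₀s, mem_ball_self hr,
    fun t ht => hSS t (hPr.sub ht)⟩
  · have hb := L₁.bas _ (hT' t ht)
    refine ⟨fun j => ⟨fun i z hz => ?_, fun κ e => ?_⟩, fun s hs' => ?_, fun k b H => ?_⟩
    · have h1 := hA2 j t ht (idx (core Γ m) 𝓕.N i).1 z hz (rep (core Γ m) (idx (core Γ m) 𝓕.N i).2)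
      have h2 : AnalyticAt ℂ (fun z : Cm d => A j t (rep (core Γ m) (idx (core Γ m) 𝓕.N i).2 •
          𝓕.σ (idx (core Γ m) 𝓕.N i).1 t z)) z :=
        AnalyticAt.fun_comp (g := fun r : Cm p × Cm d => A j r.1
          (rep (core Γ m) (idx (core Γ m) 𝓕.N i).2 • 𝓕.σ (idx (core Γ m) 𝓕.N i).1 r.1 r.2))
          (f := fun v : Cm d => (t, v)) h1 (by fun_prop)
      exact h2.differentiableAt.differentiableWithinAt
    · obtain ⟨e₁, rfl⟩ := hPr.Vt_surj hL hs ht e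
      obtain ⟨κ₁, rfl⟩ := R.surjective κ
      show A j t (R κ₁ • Vt L ht e₁) = A j t (Vt L ht e₁) +
        L₁.c (par hC.mv χ L₁.χ t) (R.symm (R κ₁)) j
      rw [← hsm, hA1, hA1, hc]
      exact (hb.add j).add κ₁ e₁
    · refine hb.indep s fun κ₁ => ?_
      have h1 := hs' (R κ₁)
      simp only [hc] at h1
      exact h1
    · obtain ⟨s, hs'⟩ := hb.span _ _ (hPr.add_V hL hρe ht H)
      refine ⟨s, fun κ => ?_⟩
      obtain ⟨κ₁, rfl⟩ := R.surjective κ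
      simp only [hc]
      exact hs' κ₁
  · exact hA2 j t ht (idx (core Γ m) 𝓕.N i).1 z hz (rep (core Γ m) (idx (core Γ m) 𝓕.N i).2)
  · exact AnalyticAt.fun_comp (g := fun s => L₁.c s (R.symm κ) j) (f := par hC.mv χ L₁.χ)
      (L₁.holc (R.symm κ) j _ (hT' t ht)) (hPr.par_hol ht)
  · exact
      { mem := hT' t ht
        off := by
          rw [par, L₁.χ.left_inv (hPr.sub₁ t ht).1]
          exact hPr.inv_off ht
        base := by
          rw [par, L₁.χ.left_inv (hPr.sub₁ t ht).1, u_inv0 hC.mv]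
        cont := hPr.Vt_cont hL ht
        surj := hPr.Vt_surj hL hs ht
        smul := fun γ e => congrArg Prod.snd (hρe γ (⟨t, ht⟩, e))
        comm := fun e => hPr.Vt_q hL ht e
        hF := fun e => funext fun j => hA1 j t ht e
        hc := fun κ => hc t κ
        hM := rfl }

end Vale.Agent.P281.H603.C
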