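import Vale.Agent.P281.H603.C.TE
import Vale.Agent.P281.H303.TE.Fin
import Vale.Agent.P281.H383.C.All

/-!
# P281, class C (helper603): T-E for manifolds in Fujiki's class, unconditional
-/

open Set Filter Metric Vale.Agent.P281 Vale.Agent.P281.H713
open Vale.Agent.P272.K (Chart IsKahler IsHermitian)
open Vale.Agent.P281.H713.TZ Vale.Agent.P281.H64
open Vale.Agent.P281.H64.Gen
open Vale.Agent.P281.H64.Thin (IsThinSet)
open scoped Topology ContDiff Manifold

set_option linter.all false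

noncomputable section

namespace Vale.Agent.P281.H603.C

open Vale.Agent.P281.H303.UF

theorem albC' : AlbCStmt := albC TK.inputs H383.C.dglob H383.C.boundC

/-- **T-E** for `X` in Fujiki's class -/
theorem teCF {p d : ℕ} {X Y : Type} [TopologicalSpace X]
    [ChartedSpace (Cm (p + d)) X] [TopologicalSpace Y] [ChartedSpace (Cm p) Y]
    (f : X → Y) (Δ : Set X → ℝ) (hd : 0 < d)
    (h : H511.Surf.IsFibration (Cm (p + d)) (Cm p) f Δ) (hX : H383.C.ModKahler (p + d) X) :
    (∃ H : ℕ → Set Y, (∀ k, IsThinSet (Cm p) (H k)) ∧ ∀ y, (∀ k, y ∉ H k) →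
      ∀ (F : Type) [TopologicalSpace F] [T2Space F] [ChartedSpace (Cm d) F] (i : F → X),
        H511.Surf.IsFibre (Cm (p + d)) (Cm d) f y i →
        (∀ r : ℕ, TK.GaussRank d F r → ((r : ℕ∞) : WithBot ℕ∞) +
          TZ.S.kodF (p + d) p Δ (id : X → X) f ≤ TZ.S.kodX (Cm (p + d)) Δ) ∧
        (H303.TE.CondE (p + d) d i Δ → TZ.S.kodR (Cm (p + d)) (Cm d) i Δ +
          TZ.S.kodF (p + d) p Δ (id : X → X) f ≤ TZ.S.kodX (Cm (p + d)) Δ)) := by
  obtain ⟨X₁, _, _, u, hu, w, hw⟩ := hX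
  exact H303.TE.all_e hd h fun r => teC (r := r) (H389.C.degC H383.C.dglob) H152.K.ab
    H603.TE.coreS H303.TE.fibE H383.KN.genN H383.KN.imgN H737.Gen.exc crit H383.Gen.compl
    H485.Gen.har albC' H511.E.hasM H383.U.liftT H383.C.cTameOK hd h hu hw

end Vale.Agent.P281.H603.C
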