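import Vale.Agent.P281.H603.C.AlbE
import Vale.Agent.P281.H383.C.Mod
import Vale.Agent.P281.H303.TE.Step

/-!
# P281, class C (helper603): T-E for manifolds in Fujiki's class
-/

open Set Filter Metric Vale.Agent.P281 Vale.Agent.P281.H713
open Vale.Agent.P272.K (Chart IsKahler IsHermitian)
open Vale.Agent.P281.MF Vale.Agent.P281.ISO
open Vale.Agent.P281.H713.TZ Vale.Agent.P281.H64
open Vale.Agent.P281.H64.Gen
open Vale.Agent.P281.H64.Thin (IsThinSet)
open Vale.Agent.P281.H383.C (CTameOKStmt mctx mctx_ok exists_good)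
open Vale.Agent.P281.H303.TE (ndegE_le square all_e CondE)
open scoped Topology ContDiff Manifold

set_option linter.all false

noncomputable section

namespace Vale.Agent.P281.H603.C

open Vale.Agent.P281.H303.UF

/-- the first inequality, coverings of the fibres with Gauss maps of rank `r` -/
theorem firstC (alb : AlbCStmt) (has : TK.TE.HasMStmt) (lift : TU.LiftTStmt)
    (tame : CTameOKStmt) {p d m r : ℕ} {X Y : Type} [TopologicalSpace X] [T2Space X]
    [ChartedSpace (Cm (p + d)) X] [IsManifold 𝓘(ℂ, Cm (p + d)) ω X] [TopologicalSpace Y]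
    [T2Space Y] [ChartedSpace (Cm p) Y] [IsManifold 𝓘(ℂ, Cm p) ω Y] {f : X → Y}
    {Δ : Set X → ℝ} (hd : 0 < d) (h : H511.Surf.IsFibration (Cm (p + d)) (Cm p) f Δ)
    {C : Ctx (p := p) (d := d) f} (hC : C.Ok) {S : Set Y} {S₀ : Set C.Y₁} (hG : C.Good S S₀)
    (hS : IsSmallSet (Cm p) S) (hne : Sᶜ.Nonempty)
    (hN : ∀ y ∉ S, TK.TE.NDegE (p + d) p d m r f y)
    (hN' : ∀ y ∉ S, ¬ TK.TE.NDegE (p + d) p d m (r + 1) f y) :
    ((r : ℕ∞) : WithBot ℕ∞) + TZ.S.kodF (p + d) p Δ (id : X → X) f ≤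
      TZ.S.kodX (Cm (p + d)) Δ := by
  have : CompactSpace X := h.compact
  have : ConnectedSpace X := h.connected
  obtain ⟨g, n, Q, ι, U, π, L, hA⟩ := alb p d m r X Y f C S S₀ hd hC hG hN hN' hne
  have hr : r ≤ d := by
    obtain ⟨y, hy⟩ := hne
    exact ndegE_le (hN y hy)
  let e₀ : Cm (p + d) ≃L[ℂ] (Cm p × Cm d) := ContinuousLinearEquiv.ofFinrankEq (by
    simp)
  have hΔ0 : ∀ D, 0 ≤ Δ D := fun D => (snc01 (JB.snc h.snc) D).1
  refine first_of fun j₂ h₂ => ?_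
  exact lift (p + d) p X Y (Cm d) (CTame C.u C.w) f S e₀ Δ r j₂
    (tame (p + d) d X C.Z₁ C.u C.w hC.hu hC.kah.toIsHermitian) h.hol hS hG.prop.submersive h.snc
    (fun y hy => has p d r n g X Y (CTame C.u C.w) f S Q ι U π L e₀ Δ hd hr h.hol hA hΔ0 y hy)
    h₂

/-- **T-E** for `X` in Fujiki's class, one rank -/
theorem teC (deg : DegCStmt) (ab : TK.ABStmt) (coreS : TK.TE.CoreStmt)
    (fibE : TK.TE.FibEStmt) (gen : TK.GenNStmt) (img : TK.ImgNStmt) (exc : ExcStmt)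
    (crit : CritStmt) (compl : ComplStmt) (har : HartogsStmt) (alb : AlbCStmt)
    (has : TK.TE.HasMStmt) (lift : TU.LiftTStmt) (tame : CTameOKStmt)
    {p d r : ℕ} {X Y X₁ : Type} [TopologicalSpace X]
    [ChartedSpace (Cm (p + d)) X] [TopologicalSpace Y] [ChartedSpace (Cm p) Y]
    [TopologicalSpace X₁] [ChartedSpace (Cm (p + d)) X₁] {f : X → Y} {Δ : Set X → ℝ}
    (hd : 0 < d) (h : H511.Surf.IsFibration (Cm (p + d)) (Cm p) f Δ) {u : X₁ → X}
    (hu : TZ.S.IsModif (Cm (p + d)) u)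
    {w : Chart (p + d) X₁ → Cm (p + d) → Matrix (Fin (p + d)) (Fin (p + d)) ℂ} (hw : IsKahler w) :
    ∃ H : ℕ → Set Y, (∀ k, IsThinSet (Cm p) (H k)) ∧ ∀ y, (∀ k, y ∉ H k) →
      ∀ (F : Type) [TopologicalSpace F] [T2Space F] [ChartedSpace (Cm d) F] (i : F → X),
        H511.Surf.IsFibre (Cm (p + d)) (Cm d) f y i → TK.GaussRank d F r →
        ((r : ℕ∞) : WithBot ℕ∞) + TZ.S.kodF (p + d) p Δ (id : X → X) f ≤
          TZ.S.kodX (Cm (p + d)) Δ := by
  classical
  have : T2Space X := h.hausdorff.1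
  have : T2Space Y := h.hausdorff.2
  have : T2Space X₁ := hu.1.2.1
  have : CompactSpace X := h.compact
  have : ConnectedSpace X := h.connected
  have : IsManifold 𝓘(ℂ, Cm (p + d)) ω X := h.manifold.1
  have : IsManifold 𝓘(ℂ, Cm p) ω Y := h.manifold.2
  have : IsManifold 𝓘(ℂ, Cm (p + d)) ω X₁ := hu.1.2.2.2
  have : CompactSpace X₁ := by
    have h1 := hu.2.2.1.isCompact_preimage (isCompact_univ (X := X))
    rw [preimage_univ] at h1
    exact ⟨h1⟩
  have hsurj : Function.Surjective f := fun y => (h.fibres y).nonempty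
  have : PreconnectedSpace Y := by
    rw [preconnectedSpace_iff_univ, ← hsurj.range_eq]
    exact isPreconnected_range h.hol.continuous
  have : Nonempty Y := by
    obtain ⟨x⟩ : Nonempty X := inferInstance
    exact ⟨f x⟩
  have hC : (mctx f u w).Ok := mctx_ok exc h.hol hu hw
  have hM := H349.NF.mod_modif exc hu
  have hs₁ : Function.Surjective (mctx f u w).f₁ := hsurj.comp hM.surj
  have hv : TZ.S.IsModif (Cm p) (mctx f u w).v := StatV.isModif_id
  obtain ⟨S₁, hS₁, hP, hgood⟩ := exists_good (w := w) crit compl har exc h hu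
  by_cases hr : ∃ m, ∃ y ∉ S₁, TK.TE.NDegE (p + d) p d m r f y
  · obtain ⟨m, hr⟩ := hr
    -- the generic rank is at least `R`
    let P : ℕ → Prop := fun R => ∃ S : Set Y, S₁ ⊆ S ∧ IsSmallSet (Cm p) S ∧
      ∀ y ∉ S, TK.TE.NDegE (p + d) p d m R f y
    have hPd : ∀ R, P R → R ≤ d := by
      rintro R ⟨S, -, hS, hN⟩
      obtain ⟨y, hy⟩ := (compl p Y S hS).1.nonempty
      exact ndegE_le (hN y hy)
    have hPr : P r := by
      obtain ⟨S₂, h12, hS₂, hN⟩ := deg p d m r X Y f (mctx f u w) S₁ S₁ hd hC hs₁ hv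
        (hgood S₁ subset_rfl hS₁) hS₁ hS₁ hr
      exact ⟨S₂, h12, hS₂, hN⟩
    have hR : P (Nat.findGreatest P d) := Nat.findGreatest_spec (hPd r hPr) hPr
    have hle : r ≤ Nat.findGreatest P d := Nat.le_findGreatest (hPd r hPr) hPr
    set R := Nat.findGreatest P d with hRdef
    obtain ⟨S₂, h12, hS₂, hN⟩ := hR
    have hN' : ∀ y ∉ S₂, ¬ TK.TE.NDegE (p + d) p d m (R + 1) f y := by
      intro y hy hy'
      obtain ⟨S₃, h23, hS₃, hN'⟩ := deg p d m (R + 1) X Y f (mctx f u w) S₂ S₂ hd hC hs₁ hv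
        (hgood S₂ h12 hS₂) hS₂ hS₂ ⟨y, hy, hy'⟩
      have h3 : P (R + 1) := ⟨S₃, h12.trans h23, hS₃, hN'⟩
      have h4 := Nat.le_findGreatest (P := P) (hPd _ h3) h3
      omega
    have h1 := firstC alb has lift tame hd h hC (hgood S₂ h12 hS₂) hS₂
      (compl p Y S₂ hS₂).1.nonempty hN hN'
    refine ⟨fun _ => ∅, fun k => ?_, fun y hy F _ _ _ i hi hG => ?_⟩
    · exact ⟨isClosed_empty, fun x => ⟨fun _ => 1, contMDiffAt_const,
        fun h0 => one_ne_zero (h0.self_of_nhds),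
        Eventually.of_forall fun z hz => absurd hz (notMem_empty z)⟩⟩
    · refine le_trans (add_le_add ?_ le_rfl) h1
      exact_mod_cast hle
  · obtain ⟨S, H, hH, hmain⟩ := H303.TE.square gen img exc crit h h modif_id modif_id (fun x => rfl) hS₁
      (hP S₁ subset_rfl hS₁.1)
    refine ⟨H, hH, fun y hy F _ _ _ i hi hG => ?_⟩
    obtain ⟨y₁, hsq⟩ := hmain y hy F i hi
    obtain ⟨m, hm⟩ := fibE p d r X Y X Y f f id id S S₁ y y₁ F i hd hsq ab coreS hG
    exact absurd ⟨m, y₁, hsq.out₁, hm⟩ hr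

end Vale.Agent.P281.H603.C
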