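import Vale.Agent.P281.H603.C.Change

/-!
# P281, class C (helper603), block E3: the multi-valued Albanese maps
-/

open Set Filter Metric MeasureTheory Vale.Agent.P281 Vale.Agent.P281.H713 Vale.Agent.P272.K
open scoped Topology ContDiff Manifold ComplexConjugate NNReal

set_option linter.unusedSectionVars false

noncomputable section

namespace Vale.Agent.P281.H603.C

open Vale.Agent.P281.H64 (Mark Qf Qf_eq bil_eq linV linV_apply functional_eq)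
open Vale.Agent.P281.H64.TK Vale.Agent.P281.H603.K Vale.Agent.P281.H864.K
open Vale.Agent.P281.H64.TK.TE (NDegE IsAlbM)
open Vale.Agent.P281.H603.TE

attribute [local instance] ccs

/-- **E3, class C** -/
def AlbCStmt : Prop :=
  ∀ (p d m r : ℕ) (Z Y : Type) [TopologicalSpace Z] [T2Space Z] [ChartedSpace (Cm (p + d)) Z]
    [IsManifold 𝓘(ℂ, Cm (p + d)) ω Z] [TopologicalSpace Y] [T2Space Y] [ChartedSpace (Cm p) Y]
    [IsManifold 𝓘(ℂ, Cm p) ω Y] (f : Z → Y) (C : Ctx (p := p) (d := d) f) (S : Set Y)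
    (S₁ : Set C.Y₁), 0 < d → C.Ok → C.Good S S₁ →
    (∀ y ∉ S, NDegE (p + d) p d m r f y) → (∀ y ∉ S, ¬ NDegE (p + d) p d m (r + 1) f y) →
    Sᶜ.Nonempty →
    ∃ (g n : ℕ) (Q : (Fin n → ℝ) → (Fin n → ℝ) → ℝ) (ι : Type) (U : ι → Set Y)
      (π : ι → Y → ((Fin n → ℝ) ≃L[ℝ] EuclideanSpace ℂ (Fin g)))
      (L : ι → Z → (Z → EuclideanSpace ℂ (Fin g)) → Prop),
      IsAlbM (Cm (p + d)) (Cm p) d r (CTame C.u C.w) f S Q U π L

variable {p d : ℕ} {Z Y : Type} [TopologicalSpace Z] [T2Space Z] [ChartedSpace (Cm (p + d)) Z]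
  [IsManifold 𝓘(ℂ, Cm (p + d)) ω Z] [TopologicalSpace Y] [T2Space Y] [ChartedSpace (Cm p) Y]
  [IsManifold 𝓘(ℂ, Cm p) ω Y] {f : Z → Y} {C : Ctx (p := p) (d := d) f} {m n g : ℕ}
  {B : Matrix (Fin n) (Fin n) ℝ}

namespace DLocC

variable {L : DLocC C m B g}

/-- the bound for the first derivatives -/
theorem boundE (I : Inputs) (hd : 0 < d) (hn : n = 2 * g) {r K : ℝ}
    (hr : 0 < r) {A : ℝ}
    (hA : ∀ (L : DLocC C m B g) (t : Cm p) (ht : t ∈ L.T') (q : Cm d → Z) (q' : Cm d → L.E)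
      (v₀ : Cm d), IsPolydisc (Cm (p + d)) f q v₀ r → CTame C.u C.w K q v₀ r →
      (∀ v ∈ ball v₀ r, L.q t (q' v) = q v) → PolyIn (L.𝓕.at t (L.hT' ht)) q' v₀ r →
      ∀ (π : (Fin n → ℝ) ≃L[ℝ] EuclideanSpace ℂ (Fin g)), (∀ x, π x = perMap L.M (L.c t) x) →
      ∀ G : EuclideanSpace ℂ (Fin g) ≃L[ℂ] EuclideanSpace ℂ (Fin g),
        (∀ x x', (inner ℂ (G (π x)) (G (π x'))).im = Qf B x x') →
        ∀ v ∈ ball v₀ (r / 2),
          ‖fderiv ℂ (fun u => G (WithLp.toLp 2 (L.F t (q' u)))) v‖ ≤ A)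
    (D : (Fin n → ℝ) ≃L[ℝ] EuclideanSpace ℂ (Fin g)) {q : Cm d → Z} {v₀ : Cm d}
    (hq : IsPolydisc (Cm (p + d)) f q v₀ r) (hT : CTame C.u C.w K q v₀ r)
    (hy : f (q v₀) ∈ L.U) :
    ∃ h : (Fin d → ℂ) → EuclideanSpace ℂ (Fin g), DifferentiableOn ℂ h (ball v₀ r) ∧
      (∃ β : Z → EuclideanSpace ℂ (Fin g), L.IsLift (q v₀) β ∧ ∀ᶠ v in 𝓝 v₀, β (q v) = h v) ∧
      ∀ G : EuclideanSpace ℂ (Fin g) ≃L[ℂ] EuclideanSpace ℂ (Fin g),
        (∀ x x', (inner ℂ (G (L.π D (f (q v₀)) x)) (G (L.π D (f (q v₀)) x'))).im = Qf B x x') →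
        ∀ v ∈ ball v₀ (r / 2), ‖fderiv ℂ (fun u => G (h u)) v‖ ≤ A := by
  obtain ⟨q', hqq, hpoly⟩ := lift_polyM L.model hy.1 (L.hT' hy.2) hq rfl hr
  set y := f (q v₀) with hydef
  set t := L.χ y with htdef
  have ht := L.hT' hy.2
  have hbas := L.bas _ hy.2
  set h : Cm d → EuclideanSpace ℂ (Fin g) := fun v => WithLp.toLp 2 (L.F t (q' v)) with hh
  have hdiff : DifferentiableOn ℂ h (ball v₀ r) := by
    intro v hv
    obtain ⟨γ, i, z, hz, he⟩ := (L.sh hy).cover (q' v)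
    have hz3 := Sh.mem3 hz
    obtain ⟨θ, k1, k2, k3⟩ := hpoly.hol v hv i z hz3 γ he.symm
    have h2 : DifferentiableAt ℂ (fun u => (WithLp.toLp 2
        (L.F t (γ • L.𝓕.σ i t (θ u))) : EuclideanSpace ℂ (Fin g))) v :=
      DifferentiableAt.comp (g := fun u => (WithLp.toLp 2
        (L.F t (γ • L.𝓕.σ i t u)) : EuclideanSpace ℂ (Fin g))) (f := θ) v
        (by rw [k2]; exact differentiableAt_slice hy γ i hz3) k1.differentiableAt
    refine (h2.congr_of_eventuallyEq ?_).differentiableWithinAt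
    filter_upwards [k3] with u hu
    rw [hh]
    simp only
    rw [hu]
    rfl
  refine ⟨h, hdiff, ?_, ?_⟩
  · -- the lift
    have hv₀ : v₀ ∈ ball v₀ r := mem_ball_self hr
    obtain ⟨γ, i, z, hz, he⟩ := (L.sh hy).cover (q' v₀)
    have hz3 := Sh.mem3 hz
    obtain ⟨θ, k1, k2, k3⟩ := hpoly.hol v₀ hv₀ i z hz3 γ he.symm
    have hxz : L.q (L.χ (f (q v₀))) (L.𝓕.σ i (L.χ (f (q v₀))) z) = q v₀ := by
      rw [← L.q_smul hy γ]
      have h1 := hqq v₀ hv₀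
      rw [← he] at h1
      exact h1
    obtain ⟨ζ, hco, hζz⟩ := L.exists_co hy hz3 hxz
    refine ⟨_, exists_lift' hy γ hco, ?_⟩
    have hqc : ContinuousAt q v₀ := (hq.1 v₀ hv₀).continuousAt
    have e1 : ∀ᶠ v in 𝓝 v₀, θ v ∈ ball (0 : Cm d) 3 := k1.continuousAt.eventually (by
      show ∀ᶠ u in 𝓝 (θ v₀), u ∈ ball (0 : Cm d) 3
      rw [k2]
      exact isOpen_ball.mem_nhds hz3)
    have e2 : ∀ᶠ v in 𝓝 v₀, ζ (q v) ∈ ball (0 : Cm d) 3 :=
      hqc.eventually (hco.1.continuousAt.eventually (isOpen_ball.mem_nhds hco.2.1))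
    filter_upwards [e1, e2, k3, hqc.eventually hco.2.2, isOpen_ball.mem_nhds hv₀]
      with v a1 a2 a3 a4 a5
    have hfv : f (q v) = y := hq.2.2 v a5
    rw [hfv] at a4
    have a3' : q' v = γ • L.𝓕.σ i t (θ v) := a3
    have a6 : θ v = ζ (q v) := by
      refine eq_of_q hy (γ := γ) (i := i) a1 a2 ?_
      rw [a4, ← hqq v a5, a3']
    show (WithLp.toLp 2 (L.F (L.χ (f (q v))) (γ • L.𝓕.σ i (L.χ (f (q v))) (ζ (q v)))) :
      EuclideanSpace ℂ (Fin g)) = h v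
    rw [hfv, ← a6, hh]
    simp only
    rw [a3']
  · intro G hG v hv
    exact hA L t hy.2 q q' v₀ hq hT hqq hpoly (L.π D y) (π_spec I.f2 hd hn D hy) G hG v hv

/-- **change** -/
theorem changeE (I : Inputs) (hd : 0 < d) (hn : n = 2 * g) (hC : C.Ok) (L L' : DLocC C m B g)
    (D D' : (Fin n → ℝ) ≃L[ℝ] EuclideanSpace ℂ (Fin g)) {x : Z} (hx : f x ∈ L.U)
    (hx' : f x ∈ L'.U) {β β' : Z → EuclideanSpace ℂ (Fin g)} (hβ : L.IsLift x β)
    (hβ' : L'.IsLift x β') :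
    ∃ (G : EuclideanSpace ℂ (Fin g) ≃L[ℂ] EuclideanSpace ℂ (Fin g)) (b : EuclideanSpace ℂ (Fin g)),
      IsPeriodChange (Qf B) (L.π D (f x)) (L'.π D' (f x)) G ∧
        ∀ᶠ z in 𝓝 x, f z = f x → β' z = G (β z) + b := by
  obtain ⟨-, γ, i, ζ, ⟨h1, h2, h3⟩, h4⟩ := hβ
  obtain ⟨-, γ', i', ζ', ⟨h1', h2', h3'⟩, h4'⟩ := hβ'
  set y := f x with hy
  have ht := L.hT' hx.2
  have ht' := L'.hT' hx'.2
  set t := L.χ y with htd
  set t' := L'.χ y with htd'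
  obtain ⟨τ, ρ, hq, hc, -⟩ := compareC L.model L'.model ht ht'
    (by rw [htd, htd', L.left_inv hx, L'.left_inv hx']) m
  -- the points over `x`
  have k3 := h3.self_of_nhds
  have k3' := h3'.self_of_nhds
  have k4 : L'.q t' (τ (γ • L.𝓕.σ i t (ζ x))) = L'.q t' (γ' • L'.𝓕.σ i' t' (ζ' x)) := by
    rw [hq, L.q_smul hx, L'.q_smul hx']
    exact k3.trans k3'.symm
  obtain ⟨δ, hδ⟩ := (L'.model.eq _ ht' _ _).1 k4
  have hc' := hc.smul δ
  set τ' := τ.trans (Homeomorph.smul δ) with hτ'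
  have hτq : ∀ e, L'.q t' (τ' e) = L.q t e := fun e => by
    show L'.q t' (δ • τ e) = _
    rw [L'.q_smul hx' δ, hq]
  obtain ⟨G, b, hG, hGF⟩ := DLocC.change I hd hn hC L L' D D' hx hx' (τ := τ') hc'.eqv hτq
  refine ⟨G, b, hG, ?_⟩
  have hτx : τ' (γ • L.𝓕.σ i t (ζ x)) = γ' • L'.𝓕.σ i' t' (ζ' x) := hδ
  -- continuity along the fibre
  have hcont : ContinuousAt (fun z => τ' (γ • L.𝓕.σ i t (ζ z))) x := by
    refine τ'.continuous.continuousAt.comp ?_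
    refine (continuous_const_smul γ).continuousAt.comp ?_
    exact ContinuousAt.comp (g := L.𝓕.σ i t) (f := ζ) (Sh.contAt (L.sh hx) i h2) h1.continuousAt
  have hopen : (fun u => γ' • L'.𝓕.σ i' t' u) '' ball (0 : Cm d) 3 ∈
      𝓝 (τ' (γ • L.𝓕.σ i t (ζ x))) := by
    rw [hτx]
    exact (Sh.isOpen_image_smul (L'.sh hx') γ' i' isOpen_ball (Subset.refl _)).mem_nhds
      ⟨_, h2', rfl⟩
  have e1 := hcont.eventually hopen
  have e2 : ∀ᶠ z in 𝓝 x, ζ' z ∈ ball (0 : Cm d) 3 :=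
    h1'.continuousAt.eventually (isOpen_ball.mem_nhds h2')
  filter_upwards [h3, h4, h3', h4', e1, e2] with z a3 a4 a3' a4' a5 a6 hz
  rw [hz] at a3 a4 a3' a4'
  obtain ⟨u, hu, hue⟩ := a5
  have hue' : γ' • L'.𝓕.σ i' t' u = τ' (γ • L.𝓕.σ i t (ζ z)) := hue
  have a7 : L'.q t' (γ' • L'.𝓕.σ i' t' u) = L'.q t' (L'.𝓕.σ i' t' (ζ' z)) := by
    rw [hue', hτq, L.q_smul hx]
    exact a3.trans a3'.symm
  have a8 : u = ζ' z := eq_of_q hx' (γ := γ') (i := i') hu a6 a7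
  rw [a4, a4']
  have h5 := hGF (γ • L.𝓕.σ i t (ζ z))
  rw [← hue', a8] at h5
  exact h5

end DLocC

/-- **E3** -/
theorem albC (I : Inputs) (hDG : DGlobCStmt) (hBC : BoundCStmt) : AlbCStmt := by
  intro p d m r Z Y _ _ _ _ _ _ _ _ f C S S₁ hd hC hG hN hN' hne
  obtain ⟨n, g, hn, B, hL⟩ := hDG p d m Z Y f C S S₁ hd hC hG hne
  choose L h1 h2 h3 using fun a : {y // y ∉ S} => hL a.1 a.2
  have h4 : ∀ a, a.1 ∈ (L a).U := fun a => ⟨h1 a, h2 a⟩
  choose hB D hD using fun a => (L a).F2_at I.f2 hd hn (h2 a)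
  have hSU : ∀ a y, y ∈ (L a).U → y ∉ S := by
    intro a y hy
    have h5 := h3 a _ hy.2
    rwa [(L a).left_inv hy] at h5
  refine ⟨g, n, Qf B, {y // y ∉ S}, fun a => (L a).U, fun a => (L a).π (D a),
    fun a x β => (L a).IsLift x β, ?_⟩
  constructor
  · constructor
    · intro y
      constructor
      · intro hy
        exact ⟨⟨y, hy⟩, h4 ⟨y, hy⟩⟩
      · rintro ⟨a, ha⟩
        exact hSU a y ha
    · exact fun a => (L a).isOpen_U
    · exact fun a x y hy => DLocC.hol_π I.f2 hd hn (D a) x hy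
    · exact fun a y hy => DLocC.polarized I.f2 hd hn (D a) hy
  · intro x hx
    exact DLocC.coord (L := L ⟨f x, hx⟩) hC.hf (h4 ⟨f x, hx⟩)
  · exact fun a x hx => DLocC.exists_isLift hx
  · exact fun a x β hβ => DLocC.IsLift.hol hC.hf hβ
  · exact fun a x β hβ => DLocC.IsLift.near hC.hf hβ
  · intro a y hy
    exact DLocC.nondegE I hd hC.hf hC hy (hN y (hSU a y hy)) (hN' y (hSU a y hy))
  · intro r K hr hK
    obtain ⟨A, hA⟩ := hBC p d m n g Z Y f C B r K hd hn hC hr hK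
    refine ⟨A, fun a q v₀ hq hT hy => ?_⟩
    exact DLocC.boundE (L := L a) I hd hn hr hA (D a) hq hT hy
  · intro a b x hx hx' β β' hβ hβ'
    exact DLocC.changeE I hd hn hC (L a) (L b) (D a) (D b) hx hx' hβ hβ'

end Vale.Agent.P281.H603.C
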