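import Vale.Agent.P281.H603.C.AlbA
import Vale.Agent.P281.H969.K.K

/-!
# P281, class C (helper603): comparison of two models, without metrics
-/

open Set Filter Metric MeasureTheory Vale.Agent.P281 Vale.Agent.P281.H713 Vale.Agent.P272.K
open scoped Topology ContDiff Manifold ComplexConjugate

set_option linter.unusedSectionVars false

noncomputable section

namespace Vale.Agent.P281.H603.C

open Vale.Agent.P281.H64 (Mark Qf Qf_eq bil_eq linV linV_apply)
open Vale.Agent.P281.H64.TK Vale.Agent.P281.H603.K Vale.Agent.P281.H864.K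
open Vale.Agent.P281.H603.TE Vale.Agent.P281.H603.KodN

attribute [local instance] ccs

section
variable {d : ℕ} {E Γ E' Γ' : Type} [TopologicalSpace E] [Group Γ] [MulAction Γ E]
  [TopologicalSpace E'] [Group Γ'] [MulAction Γ' E']

/-- An isomorphism of `S` with `S'`. -/
structure CmpH (S : Sheets d E Γ) (S' : Sheets d E' Γ') (τ : E ≃ₜ E') (ρ : Γ ≃* Γ') : Prop where
  eqv : ∀ γ e, τ (γ • e) = ρ γ • τ e
  hol : HolCompat S (S'.pull τ ρ eqv)

variable {S : Sheets d E Γ} {S' : Sheets d E' Γ'} {τ : E ≃ₜ E'} {ρ : Γ ≃* Γ'}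

theorem CmpH.symm_smul (h : CmpH S S' τ ρ) (γ : Γ') (e : E') :
    τ.symm (γ • e) = ρ.symm γ • τ.symm e := by
  apply τ.injective
  rw [h.eqv, τ.apply_symm_apply, ρ.apply_symm_apply, τ.apply_symm_apply]

/-- composition with `δ ∈ Γ'` -/
theorem CmpH.smul [ContinuousConstSMul Γ' E'] (h : CmpH S S' τ ρ) (δ : Γ') :
    CmpH S S' (τ.trans (Homeomorph.smul δ)) (ρ.trans (MulAut.conj δ)) where
  eqv γ e := by
    show δ • τ (γ • e) = (δ * ρ γ * δ⁻¹) • δ • τ e
    rw [h.eqv, mul_smul, mul_smul, inv_smul_smul]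
  hol i j z hz v hv γ he := by
    have key : ∀ e : E', γ • (τ.trans (Homeomorph.smul δ)).symm e =
        (γ * ρ.symm δ⁻¹) • τ.symm e := by
      intro e
      show γ • τ.symm (δ⁻¹ • e) = _
      rw [h.symm_smul, mul_smul]
    have he' : S.σ i z = (γ * ρ.symm δ⁻¹) • τ.symm (S'.σ j v) := by
      rw [← key]
      exact he
    obtain ⟨θ, h1, h2, h3, h4⟩ := h.hol i j z hz v hv (γ * ρ.symm δ⁻¹) he'
    refine ⟨θ, h1, h2, h3, ?_⟩
    filter_upwards [h4] with u hu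
    have hu' : S.σ i u = (γ * ρ.symm δ⁻¹) • τ.symm (S'.σ j (θ u)) := hu
    rw [← key] at hu'
    exact hu'

/-- the coverings -/
theorem CmpH.sub {K : Subgroup Γ} {K' : Subgroup Γ'} [K.FiniteIndex] [K'.FiniteIndex]
    [ContinuousConstSMul Γ E] [ContinuousConstSMul Γ' E'] (h : CmpH S S' τ ρ)
    (hK : ∀ γ, ρ γ ∈ K' ↔ γ ∈ K) :
    CmpH (sub S K) (TE.sub S' K') τ (res ρ hK) where
  eqv κ e := h.eqv κ e
  hol i j z hz v hv κ he := by
    have key : ∀ e : E', (κ : Γ) • τ.symm (rep K' (idx K' S'.N j).2 • e) =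
        ((κ : Γ) * ρ.symm (rep K' (idx K' S'.N j).2)) • τ.symm e := by
      intro e
      rw [h.symm_smul, mul_smul]
    have he' : rep K (idx K S.N i).2 • S.σ (idx K S.N i).1 z =
        (κ : Γ) • τ.symm (rep K' (idx K' S'.N j).2 • S'.σ (idx K' S'.N j).1 v) := he
    rw [key] at he'
    have he2 : S.σ (idx K S.N i).1 z = ((rep K (idx K S.N i).2)⁻¹ *
        ((κ : Γ) * ρ.symm (rep K' (idx K' S'.N j).2))) •
          τ.symm (S'.σ (idx K' S'.N j).1 v) := by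
      rw [mul_smul, ← he', inv_smul_smul]
    obtain ⟨θ, h1, h2, h3, h4⟩ := h.hol _ _ z hz v hv _ he2
    refine ⟨θ, h1, h2, h3, ?_⟩
    filter_upwards [h4] with u hu
    have hu' : S.σ (idx K S.N i).1 u = ((rep K (idx K S.N i).2)⁻¹ *
        ((κ : Γ) * ρ.symm (rep K' (idx K' S'.N j).2))) •
          τ.symm (S'.σ (idx K' S'.N j).1 (θ u)) := hu
    show rep K (idx K S.N i).2 • S.σ (idx K S.N i).1 u =
      (κ : Γ) • τ.symm (rep K' (idx K' S'.N j).2 • S'.σ (idx K' S'.N j).1 (θ u))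
    rw [key, hu', mul_smul, smul_inv_smul]

end

section
variable {n p d : ℕ} {Z Y : Type} [TopologicalSpace Z] [ChartedSpace (Cm n) Z]
    [IsManifold 𝓘(ℂ, Cm n) ω Z] [TopologicalSpace Y] [ChartedSpace (Cm p) Y] {f : Z → Y}
    {E Γ : Type} [TopologicalSpace E] [SimplyConnectedSpace E] [Group Γ] [MulAction Γ E]
    [ContinuousConstSMul Γ E]
    {𝓕 : Fam p d E Γ} {q : Cm p → E → Z} {χ : OpenPartialHomeomorph Y (Cm p)}
    {E' Γ' : Type} [TopologicalSpace E'] [SimplyConnectedSpace E'] [Group Γ'] [MulAction Γ' E']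
    [ContinuousConstSMul Γ' E']
    {𝓕' : Fam p d E' Γ'} {q' : Cm p → E' → Z} {χ' : OpenPartialHomeomorph Y (Cm p)}

/-- an isomorphism over the identity of the fibre is holomorphic -/
theorem cmpH_of (M : Model (n := n) f 𝓕 χ q) (M' : Model (n := n) f 𝓕' χ' q') {t : Cm p}
    (ht : t ∈ 𝓕.T) {t' : Cm p} (ht' : t' ∈ 𝓕'.T) (hy : χ.symm t = χ'.symm t') {τ : E ≃ₜ E'}
    {ρ : Γ ≃* Γ'} (h1 : ∀ γ e, τ (γ • e) = ρ γ • τ e) (h3 : ∀ e, q' t' (τ e) = q t e) :
    CmpH (𝓕.at t ht) (𝓕'.at t' ht') τ ρ := by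
  refine ⟨h1, fun i j z hz w hw γ he => ?_⟩
  have he0 : 𝓕.σ i t z = γ • τ.symm (𝓕'.σ j t' w) := he
  have he1 : τ (𝓕.σ i t z) = ρ γ • 𝓕'.σ j t' w := by
    rw [he0, h1, τ.apply_symm_apply]
  obtain ⟨θ, a1, a2, a3⟩ := H969.K.K_aux M M' ht ht' hy τ.continuous h3 hz hw he1
  refine ⟨θ, a1, a2, ?_, ?_⟩
  · -- the inverse map
    have h4 : ∀ e, q t (τ.symm e) = q' t' e := fun e => by rw [← h3, τ.apply_symm_apply]
    have h5 : τ.symm (𝓕'.σ j t' w) = γ⁻¹ • 𝓕.σ i t z := by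
      rw [he0, inv_smul_smul]
    obtain ⟨θ', b1, b2, b3⟩ := H969.K.K_aux M' M ht' ht hy.symm τ.symm.continuous h4 hw hz h5
    have h6 : ∀ᶠ u in 𝓝 z, τ.symm (𝓕'.σ j t' (θ u)) = γ⁻¹ • 𝓕.σ i t (θ' (θ u)) :=
      a1.continuousAt.eventually (by rw [a2]; exact b3)
    have hc : ContinuousAt (fun u => θ' (θ u)) z :=
      ContinuousAt.comp (f := θ) (g := θ') (by rw [a2]; exact b1.continuousAt) a1.continuousAt
    have h7 : ∀ᶠ u in 𝓝 z, θ' (θ u) ∈ ball (0 : Cm d) 3 := hc.eventually (by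
      show ∀ᶠ y in 𝓝 (θ' (θ z)), y ∈ ball (0 : Cm d) 3
      rw [a2, b2]; exact isOpen_ball.mem_nhds hz)
    have h8 : (fun u => θ' (θ u)) =ᶠ[𝓝 z] fun u => u := by
      filter_upwards [a3, h6, h7, isOpen_ball.mem_nhds hz] with u a b c d
      have a' : 𝓕.σ i t u = γ • τ.symm (𝓕'.σ j t' (θ u)) := by
        apply τ.injective
        rw [h1, τ.apply_symm_apply]
        exact a
      rw [b, smul_inv_smul] at a'
      exact (Sh.injOn (𝓕.at t ht) i d c a').symm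
    have h9 : HasFDerivAt (fun u => θ' (θ u)) ((fderiv ℂ θ' (θ z)).comp (fderiv ℂ θ z)) z :=
      HasFDerivAt.comp z (by rw [a2]; exact b1.differentiableAt.hasFDerivAt)
        a1.differentiableAt.hasFDerivAt
    have h10 := h9.unique ((hasFDerivAt_id z).congr_of_eventuallyEq h8)
    have h11 : H64.TK.jac θ' (θ z) * H64.TK.jac θ z = 1 := by
      ext l k
      have h12 := congrFun (congrArg (fun L : Cm d →L[ℂ] Cm d => L (Pi.single k 1)) h10) l
      simp only [ContinuousLinearMap.comp_apply, ContinuousLinearMap.id_apply] at h12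
      rw [Matrix.mul_apply, Matrix.one_apply, ← Pi.single_apply, ← h12, H969.K.clm_sum]
      exact Finset.sum_congr rfl fun m _ => rfl
    intro h14
    have h15 := congrArg Matrix.det h11
    rw [Matrix.det_mul, h14, mul_zero, Matrix.det_one] at h15
    exact zero_ne_one h15
  · filter_upwards [a3] with u hu
    show 𝓕.σ i t u = γ • τ.symm (𝓕'.σ j t' (θ u))
    apply τ.injective
    rw [h1, τ.apply_symm_apply]
    exact hu

/-- **comparison of two models at the same point** -/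
theorem compareC (M : Model (n := n) f 𝓕 χ q) (M' : Model (n := n) f 𝓕' χ' q') {t : Cm p}
    (ht : t ∈ 𝓕.T) {t' : Cm p} (ht' : t' ∈ 𝓕'.T) (hy : χ.symm t = χ'.symm t') (m : ℕ)
    [(core Γ m).FiniteIndex] [(core Γ' m).FiniteIndex] :
    ∃ (τ : E ≃ₜ E') (ρ : Γ ≃* Γ'), (∀ e, q' t' (τ e) = q t e) ∧
      CmpH (𝓕.at t ht) (𝓕'.at t' ht') τ ρ ∧
      CmpH (sub (𝓕.at t ht) (core Γ m)) (sub (𝓕'.at t' ht') (core Γ' m)) τ
          (res ρ fun _ => map_core ρ m) := by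
  obtain ⟨τ, ρ, h1, h3⟩ := H969.K.exists_iso M M' ht ht' hy
  have h := cmpH_of M M' ht ht' hy h1 h3
  exact ⟨τ, ρ, h3, h, h.sub (K := core Γ m) (K' := core Γ' m) fun _ => map_core ρ m⟩

end

end Vale.Agent.P281.H603.C
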