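import Vale.Agent.P281.H603.C.Geo
import Vale.Agent.P281.H303.Gen.Push3

/-!
# P281, class C (helper603), block M3: connectedness of the complements, charts
-/

open Set Filter Metric Vale.Agent.P281 Vale.Agent.P281.H713 Vale.Agent.P281.ISO
open scoped Topology ContDiff Manifold

set_option linter.unusedSectionVars false

noncomputable section

namespace Vale.Agent.P281.H603.C

open Vale.Agent.P281.H603.KodN Vale.Agent.P281.H64.Gen Vale.Agent.P272.K
open Vale.Agent.P281.H64.Thin (IsThinSet)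

/-- the complement of a closed set which does not separate locally -/
theorem preconn_of_local {M : Type} [TopologicalSpace M] [PreconnectedSpace M] {N : Set M}
    (hd : ∀ z : M, ∀ U ∈ 𝓝 z, ∃ y ∈ U, y ∉ N)
    (h : ∀ z : M, ∃ U ∈ 𝓝 z, IsPreconnected (U \ N)) : IsPreconnected Nᶜ := by
  rw [isPreconnected_iff_subset_of_disjoint]
  intro u v hu hv huv hemp
  have hdis : ∀ y, y ∉ N → y ∈ u → y ∈ v → False := by
    intro y h1 h2 h3
    have : y ∈ Nᶜ ∩ (u ∩ v) := ⟨h1, h2, h3⟩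
    rw [hemp] at this
    exact this
  set A : Set M := {z | ∀ᶠ y in 𝓝 z, y ∉ N → y ∈ u} with hA
  set A' : Set M := {z | ∀ᶠ y in 𝓝 z, y ∉ N → y ∈ v} with hA'
  have hAo : IsOpen A := isOpen_setOfPred_eventually_nhds
  have hAo' : IsOpen A' := isOpen_setOfPred_eventually_nhds
  have hcov : (univ : Set M) ⊆ A ∪ A' := by
    intro z _
    obtain ⟨U, hU, hUc⟩ := h z
    rcases isPreconnected_iff_subset_of_disjoint.1 hUc u v hu hv
      (fun y hy => huv hy.2) (by
        rw [Set.eq_empty_iff_forall_notMem]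
        rintro y ⟨h1, h2, h3⟩
        exact hdis y h1.2 h2 h3) with h1 | h1
    · left
      filter_upwards [hU] with y hy hyN using h1 ⟨hy, hyN⟩
    · right
      filter_upwards [hU] with y hy hyN using h1 ⟨hy, hyN⟩
  have hAA : univ ∩ (A ∩ A') = ∅ := by
    rw [Set.eq_empty_iff_forall_notMem]
    rintro z ⟨-, h1, h2⟩
    obtain ⟨y, hy, hyN⟩ := hd z _ (inter_mem h1 h2)
    exact hdis y hyN (hy.1 hyN) (hy.2 hyN)
  rcases isPreconnected_iff_subset_of_disjoint.1 isPreconnected_univ A A' hAo hAo' hcov hAA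
    with h1 | h1
  · left
    intro y hy
    have h2 : ∀ᶠ y' in 𝓝 y, y' ∉ N → y' ∈ u := h1 (mem_univ y)
    exact h2.self_of_nhds hy
  · right
    intro y hy
    have h2 : ∀ᶠ y' in 𝓝 y, y' ∉ N → y' ∈ v := h1 (mem_univ y)
    exact h2.self_of_nhds hy

theorem Thin2.mono {n : ℕ} {A B B' : Set (Cm n)} (h : Thin2 A B) (hB : B' ⊆ B) : Thin2 A B' where
  closed b hb := h.closed b (hB hb)
  cover := by
    obtain ⟨H, h1, h2⟩ := h.cover
    exact ⟨H, (inter_subset_inter_right A hB).trans h1, h2⟩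

section man

variable {n : ℕ} {X : Type} [TopologicalSpace X] [ChartedSpace (Cm n) X]
  [IsManifold 𝓘(ℂ, Cm n) ω X]

/-- small sets of codimension two in the charts -/
theorem thin2_chart {N : Set X} (hN : IsSmall2 (Cm n) N) (x₀ : X) {O : Set (Cm n)}
    (_hO : IsOpen O) (hOt : O ⊆ (chartAt (Cm n) x₀).target) :
    Thin2 (O ∩ (chartAt (Cm n) x₀).symm ⁻¹' N) O := by
  set ψ := chartAt (Cm n) x₀ with hψ
  obtain ⟨hNc, H, hH, hNH⟩ := hN
  constructor
  · intro b hb hbN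
    have h1 : ψ.symm b ∉ N := fun h => hbN ⟨hb, h⟩
    filter_upwards [(ψ.continuousAt_symm (hOt hb)).eventually (hNc.isOpen_compl.mem_nhds h1)]
      with y hy
    exact fun h => hy h.2
  · refine ⟨fun k => O ∩ ψ.symm ⁻¹' (H k), ?_, ?_⟩
    · rintro y ⟨⟨hy1, hy2⟩, -⟩
      obtain ⟨k, hk⟩ := mem_iUnion.1 (hNH hy2)
      exact mem_iUnion.2 ⟨k, hy1, hk⟩
    · rintro k w ⟨hwO, hwk⟩
      have hwt := hOt hwO
      have hxs : ψ.symm w ∈ (chartAt (Cm n) x₀).source := ψ.map_target hwt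
      obtain ⟨g, hg, hs, he⟩ := (hH k).2 _ hwk
      refine ⟨fun a => g a ∘ ψ.symm, fun a => ?_, ?_, ?_⟩
      · have h1 := HolV.rep (x₀ := x₀) hxs (show HolV (Cm n) (g a) (ψ.symm w) from hg a)
        rw [show chartAt (Cm n) x₀ (ψ.symm w) = w from ψ.right_inv hwt] at h1
        exact h1
      · intro y
        obtain ⟨ξ, hξ⟩ := hs y
        refine ⟨dV (Cm n) (chartAt (Cm n) x₀ : X → Cm n) (ψ.symm w) ξ, ?_⟩
        rw [← hξ]
        funext a
        have h1 := dV_eq_chart (E := Cm n) hxs (show HolV (Cm n) (g a) (ψ.symm w) from hg a)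
        rw [show chartAt (Cm n) x₀ (ψ.symm w) = w from ψ.right_inv hwt] at h1
        show _ = dV (Cm n) (g a) (ψ.symm w) ξ
        rw [h1]
        rfl
      · filter_upwards [(ψ.continuousAt_symm hwt).eventually he] with y hy hy2 a
        exact hy hy2.2 a

end man

section tot

variable {P : Type} [NormedAddCommGroup P] [NormedSpace ℝ P] {B : Set P} {X E Γ : Type}
  [TopologicalSpace X] [TopologicalSpace E] [Group Γ] [MulAction Γ E] [ContinuousConstSMul Γ E]
  {Z₀ : Set X} {g : X → P} {q : P → E → X}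

/-- the projection to `X` is a local homeomorphism -/
theorem TotCov.locHom (h : TotCov Γ B Z₀ g q) (hZ : IsOpen Z₀) :
    IsLocalHomeomorph fun x : Tot B E => q x.1 x.2 := by
  have h1 : IsLocalHomeomorph (Subtype.val : ↥Z₀ → X) := hZ.isOpenEmbedding_subtypeVal.isLocalHomeomorph
  exact h1.comp h.cover.isLocalHomeomorph

variable {n : ℕ} [ChartedSpace (Cm n) X]

/-- the charts of the total space -/
theorem TotCov.exists_chart (h : TotCov Γ B Z₀ g q) (hZ : IsOpen Z₀) (x : Tot B E) :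
    ∃ φ : OpenPartialHomeomorph (Tot B E) (Cm n), x ∈ φ.source ∧
      φ.target ⊆ (chartAt (Cm n) (q x.1 x.2)).target ∧
      ∀ w ∈ φ.target, q (φ.symm w).1 (φ.symm w).2 = (chartAt (Cm n) (q x.1 x.2)).symm w := by
  obtain ⟨e, he, hee⟩ : ∃ e : OpenPartialHomeomorph (Tot B E) X, x ∈ e.source ∧
      (fun x : Tot B E => q x.1 x.2) = (e : Tot B E → X) := (h.locHom hZ) x
  have hex : e x = q x.1 x.2 := (congrFun hee x).symm
  have heo : x ∈ (e.trans (chartAt (Cm n) (q x.1 x.2))).source := by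
    rw [OpenPartialHomeomorph.trans_source]
    refine ⟨he, ?_⟩
    show e x ∈ (chartAt (Cm n) (q x.1 x.2)).source
    rw [hex]
    exact mem_chart_source _ _
  refine ⟨e.trans (chartAt (Cm n) (q x.1 x.2)), heo, ?_, ?_⟩
  · rw [OpenPartialHomeomorph.trans_target]
    exact inter_subset_left
  · intro w hw
    rw [OpenPartialHomeomorph.trans_target] at hw
    have h2 : (e.trans (chartAt (Cm n) (q x.1 x.2))).symm w =
        e.symm ((chartAt (Cm n) (q x.1 x.2)).symm w) := rfl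
    rw [h2]
    have h3 : e (e.symm ((chartAt (Cm n) (q x.1 x.2)).symm w)) =
        (chartAt (Cm n) (q x.1 x.2)).symm w := e.right_inv hw.2
    have h4 := congrFun hee (e.symm ((chartAt (Cm n) (q x.1 x.2)).symm w))
    exact h4.trans h3

/-- transport of local statements from the charts of `X` -/
theorem TotCov.preconn (h : TotCov Γ B Z₀ g q) (hZ : IsOpen Z₀) [PreconnectedSpace (Tot B E)]
    {N : Set X} (hloc : ∀ (x₀ : X) (w : Cm n), w ∈ (chartAt (Cm n) x₀).target → ∃ r₀ > 0,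
      ∀ r, 0 < r → r < r₀ → IsPreconnected (ball w r \ (chartAt (Cm n) x₀).symm ⁻¹' N) ∧
        ∃ y ∈ ball w r, (chartAt (Cm n) x₀).symm y ∉ N) :
    IsPreconnected {y : Tot B E | q y.1 y.2 ∉ N} := by
  have key : ∀ z : Tot B E, ∀ O ∈ 𝓝 z, ∃ U ∈ 𝓝 z, U ⊆ O ∧
      IsPreconnected (U \ {y : Tot B E | q y.1 y.2 ∈ N}) ∧ ∃ y ∈ U, q y.1 y.2 ∉ N := by
    intro z O hO
    obtain ⟨φ, hz, hφt, hφ⟩ := h.exists_chart (n := n) hZ z
    have hzt : φ z ∈ φ.target := φ.map_source hz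
    obtain ⟨r₀, hr₀, hr⟩ := hloc (q z.1 z.2) (φ z) (hφt hzt)
    have hO' : φ.symm ⁻¹' O ∈ 𝓝 (φ z) := by
      refine (φ.continuousAt_symm hzt).preimage_mem_nhds ?_
      rw [φ.left_inv hz]
      exact hO
    obtain ⟨r₁, hr₁, hb⟩ := Metric.mem_nhds_iff.1 (inter_mem hO' (φ.open_target.mem_nhds hzt))
    obtain ⟨hc, y, hy, hyN⟩ := hr (min (r₀ / 2) r₁) (by positivity)
      (lt_of_le_of_lt (min_le_left _ _) (by linarith))
    have hbr : ball (φ z) (min (r₀ / 2) r₁) ⊆ φ.symm ⁻¹' O ∩ φ.target :=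
      (ball_subset_ball (min_le_right _ _)).trans hb
    refine ⟨φ.symm '' ball (φ z) (min (r₀ / 2) r₁), ?_, ?_, ?_, ?_⟩
    · have h1 := φ.symm.image_mem_nhds (x := φ z) hzt
        (ball_mem_nhds (φ z) (show 0 < min (r₀ / 2) r₁ by positivity))
      rwa [φ.left_inv hz] at h1
    · rintro _ ⟨w, hw, rfl⟩
      exact (hbr hw).1
    · have h2 : φ.symm '' ball (φ z) (min (r₀ / 2) r₁) \ {y : Tot B E | q y.1 y.2 ∈ N} =
          φ.symm '' (ball (φ z) (min (r₀ / 2) r₁) \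
            (chartAt (Cm n) (q z.1 z.2)).symm ⁻¹' N) := by
        ext x
        constructor
        · rintro ⟨⟨w, hw, rfl⟩, hx⟩
          refine ⟨w, ⟨hw, fun hwN => hx ?_⟩, rfl⟩
          show q (φ.symm w).1 (φ.symm w).2 ∈ N
          rw [hφ w (hbr hw).2]
          exact hwN
        · rintro ⟨w, ⟨hw, hwN⟩, rfl⟩
          refine ⟨⟨w, hw, rfl⟩, fun hx => hwN ?_⟩
          have h3 : q (φ.symm w).1 (φ.symm w).2 ∈ N := hx
          rw [hφ w (hbr hw).2] at h3
          exact h3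
      rw [h2]
      refine hc.image _ ?_
      intro w hw
      exact (φ.continuousAt_symm (hbr hw.1).2).continuousWithinAt
    · refine ⟨φ.symm y, ⟨y, hy, rfl⟩, ?_⟩
      rw [hφ y (hbr hy).2]
      exact hyN
  refine preconn_of_local (N := {y : Tot B E | q y.1 y.2 ∈ N}) (fun z O hO => ?_) fun z => ?_
  · obtain ⟨U, -, hUO, -, y, hy, hyN⟩ := key z O hO
    exact ⟨y, hUO hy, hyN⟩
  · obtain ⟨U, hU, -, hc, -⟩ := key z univ univ_mem
    exact ⟨U, hU, hc⟩

/-- the complement of a small set of codimension two -/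
theorem TotCov.preconn_small2 [IsManifold 𝓘(ℂ, Cm n) ω X] (hS : SecStmt) (h : TotCov Γ B Z₀ g q)
    (hZ : IsOpen Z₀) [PreconnectedSpace (Tot B E)] {N : Set X} (hN : IsSmall2 (Cm n) N) :
    IsPreconnected {y : Tot B E | q y.1 y.2 ∉ N} := by
  refine h.preconn (n := n) hZ fun x₀ w hw => ?_
  obtain ⟨r₀, hr₀, hb⟩ := Metric.mem_nhds_iff.1 ((chartAt (Cm n) x₀).open_target.mem_nhds hw)
  refine ⟨r₀, hr₀, fun r hr hrr => ?_⟩
  have hbr : ball w r ⊆ (chartAt (Cm n) x₀).target := (ball_subset_ball hrr.le).trans hb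
  have h1 := thin2_chart hN x₀ (isOpen_ball (x := w) (ε := r)) hbr
  obtain ⟨h2, h3, -⟩ := hS n _ _ h1 isOpen_ball (convex_ball w r)
  constructor
  · convert h2 using 1
    ext y
    constructor
    · rintro ⟨a, b⟩
      exact ⟨a, fun hc => b hc.2⟩
    · rintro ⟨a, b⟩
      exact ⟨a, fun hc => b ⟨a, hc⟩⟩
  · obtain ⟨y, hy, hyN⟩ := h3 w (mem_ball_self hr) _ (ball_mem_nhds w hr)
    exact ⟨y, hy.1, fun hc => hyN ⟨hy.1, hc⟩⟩

/-- the charts in `CovInjStmt` -/
theorem TotCov.charts [IsManifold 𝓘(ℂ, Cm n) ω X] (h : TotCov Γ B Z₀ g q) (hZ : IsOpen Z₀)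
    {N : Set X} (hN : IsSmall2 (Cm n) N) (z : Tot B E) :
    ∃ φ : OpenPartialHomeomorph (Tot B E) (Cm n), z ∈ φ.source ∧
      Thin2 (φ.target ∩ φ.symm ⁻¹' {y : Tot B E | q y.1 y.2 ∈ N}) φ.target := by
  obtain ⟨φ, hz, hφt, hφ⟩ := h.exists_chart (n := n) hZ z
  refine ⟨φ, hz, ?_⟩
  have h1 := thin2_chart hN (q z.1 z.2) φ.open_target hφt
  convert h1 using 1
  ext w
  constructor
  · rintro ⟨a, b⟩
    refine ⟨a, ?_⟩
    have h3 : q (φ.symm w).1 (φ.symm w).2 ∈ N := b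
    rw [hφ w a] at h3
    exact h3
  · rintro ⟨a, b⟩
    refine ⟨a, ?_⟩
    show q (φ.symm w).1 (φ.symm w).2 ∈ N
    rw [hφ w a]
    exact b

/-- the complement of a hypersurface -/
theorem TotCov.preconn_hyp [IsManifold 𝓘(ℂ, Cm n) ω X] (h : TotCov Γ B Z₀ g q)
    (hZ : IsOpen Z₀) [PreconnectedSpace (Tot B E)] {N : Set X} (hNc : IsClosed N)
    (hNd : Dense Nᶜ) (hloc : ∀ x : X, ∃ R : X → ℂ, HolV (Cm n) R x ∧
      ∀ᶠ z in 𝓝 x, z ∈ N ↔ R z = 0) : IsPreconnected {y : Tot B E | q y.1 y.2 ∉ N} := by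
  refine h.preconn (n := n) hZ fun x₀ w hw => ?_
  set ψ := chartAt (Cm n) x₀ with hψ
  obtain ⟨r₀, hr₀, hb⟩ := Metric.mem_nhds_iff.1 (ψ.open_target.mem_nhds hw)
  refine ⟨r₀, hr₀, fun r hr hrr => ?_⟩
  have hbr : closedBall w r ⊆ ψ.target := (closedBall_subset_ball hrr).trans hb
  have hdense : ∀ y ∈ ψ.target, ∀ W ∈ 𝓝 y, ∃ y' ∈ W, ψ.symm y' ∉ N := by
    intro y hy W hW
    have h1 : ψ.symm '' (W ∩ ψ.target) ∈ 𝓝 (ψ.symm y) :=
      ψ.symm.image_mem_nhds (x := y) hy (inter_mem hW (ψ.open_target.mem_nhds hy))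
    obtain ⟨x, hx, hxN⟩ := hNd.inter_nhds_nonempty h1
    obtain ⟨y', ⟨hy', -⟩, rfl⟩ := hxN
    exact ⟨y', hy', hx⟩
  have hthin : IsThinSet (Cm n) (closedBall w r ∩ ψ.symm ⁻¹' N) := by
    have hcl : IsClosed (closedBall w r ∩ ψ.symm ⁻¹' N) := by
      refine ContinuousOn.preimage_isClosed_of_isClosed ?_ isClosed_closedBall hNc
      intro y hy
      exact (ψ.continuousAt_symm (hbr hy)).continuousWithinAt
    refine ⟨hcl, fun y => ?_⟩
    by_cases hy : y ∈ closedBall w r ∩ ψ.symm ⁻¹' N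
    · have hyt := hbr hy.1
      have hxs : ψ.symm y ∈ (chartAt (Cm n) x₀).source := ψ.map_target hyt
      obtain ⟨R, hR, hRe⟩ := hloc (ψ.symm y)
      have h2 := (ψ.continuousAt_symm hyt).eventually hRe
      refine ⟨R ∘ ψ.symm, ?_, ?_, ?_⟩
      · have h1 := HolV.rep (x₀ := x₀) hxs hR
        rw [show chartAt (Cm n) x₀ (ψ.symm y) = y from ψ.right_inv hyt] at h1
        exact contMDiffAt_iff_contDiffAt.2 h1
      · intro hcon
        obtain ⟨y', hy', hyN⟩ := hdense y hyt _ (inter_mem hcon h2)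
        exact hyN (hy'.2.2 hy'.1)
      · filter_upwards [h2] with y' h3 h4
        exact h3.1 h4.2
    · refine ⟨fun _ => 1, contMDiffAt_const, ?_, ?_⟩
      · intro hcon
        exact one_ne_zero hcon.self_of_nhds
      · filter_upwards [hcl.isOpen_compl.mem_nhds hy] with y' h3 h4
        exact absurd h4 h3
  constructor
  · have h1 := H303.Gen.isPreconnected_diff (isOpen_ball (x := w) (ε := r))
      (convex_ball w r).isPreconnected (S := closedBall w r ∩ ψ.symm ⁻¹' N)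
      ⟨hthin.1, fun _ => closedBall w r ∩ ψ.symm ⁻¹' N, fun _ => hthin, fun y hy =>
        mem_iUnion.2 ⟨0, hy⟩⟩
    convert h1 using 1
    ext y
    constructor
    · rintro ⟨a, b⟩
      exact ⟨a, fun hc => b hc.2⟩
    · rintro ⟨a, b⟩
      exact ⟨a, fun hc => b ⟨ball_subset_closedBall a, hc⟩⟩
  · exact hdense w hw _ (ball_mem_nhds w hr)

end tot

end Vale.Agent.P281.H603.C
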