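import Vale.Agent.P281.H603.C.Conn
import Vale.Agent.P281.H603.C.Ctx
import Vale.Agent.P281.H485.Gen.Har

/-!
# P281, class C (helper603), block C1: descent of functions (Hartogs)
-/

open Set Filter Metric Vale.Agent.P281 Vale.Agent.P281.H713 Vale.Agent.P281.ISO
open scoped Topology ContDiff Manifold

set_option linter.unusedSectionVars false

noncomputable section

namespace Vale.Agent.P281.H603.C

open Vale.Agent.P281.H64.TK Vale.Agent.P281.H603.K Vale.Agent.P281.H603.TE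
open Vale.Agent.P281.H603.KodN Vale.Agent.P281.H64.Gen Vale.Agent.P272.K

section model

variable {n p d : ℕ} {Z Y : Type} [TopologicalSpace Z] [ChartedSpace (Cm n) Z]
  [TopologicalSpace Y] [ChartedSpace (Cm p) Y] {E Γ : Type} [TopologicalSpace E] [Group Γ]
  [MulAction Γ E] [ContinuousConstSMul Γ E] {f : Z → Y} {𝓕 : Fam p d E Γ}
  {χ : OpenPartialHomeomorph Y (Cm p)} {q : Cm p → E → Z}

/-- the coordinates of a translate of a sheet -/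
theorem sheet_co (hM : Model (n := n) f 𝓕 χ q) {t : Cm p} (ht : t ∈ 𝓕.T) (i : Fin 𝓕.N) {z : Cm d}
    (hz : z ∈ ball (0 : Cm d) 3) (γ : Γ) : ∃ ζ : Z → Cm d,
      ContMDiffAt 𝓘(ℂ, Cm n) 𝓘(ℂ, Cm d) ω ζ (q t (𝓕.σ i t z)) ∧ ζ (q t (𝓕.σ i t z)) = z ∧
      ∀ᶠ r : Cm p × E in 𝓝 (t, γ • 𝓕.σ i t z), r.2 = γ • 𝓕.σ i r.1 (ζ (q r.1 r.2)) := by
  obtain ⟨ζ, h1, h2, h3⟩ := hM.coord i t ht z hz
  refine ⟨ζ, h1, h2, ?_⟩
  rw [← fam_map_nhds_smul 𝓕 γ i ht hz, eventually_map]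
  have hc : Tendsto (fun r : Cm p × Cm d => q r.1 (𝓕.σ i r.1 r.2)) (𝓝 (t, z))
      (𝓝 (q t (𝓕.σ i t z))) := (hM.hol i t ht z hz).continuousAt
  have e1 : ∀ᶠ r : Cm p × Cm d in 𝓝 (t, z), r.1 ∈ 𝓕.T :=
    (continuous_fst.tendsto (t, z)).eventually (𝓕.isOpen.mem_nhds ht)
  have e2 : ∀ᶠ r : Cm p × Cm d in 𝓝 (t, z), r.2 ∈ ball (0 : Cm d) 3 :=
    (continuous_snd.tendsto (t, z)).eventually (isOpen_ball.mem_nhds hz)
  have e3 : ∀ᶠ x in 𝓝 (q t (𝓕.σ i t z)), ζ x ∈ ball (0 : Cm d) 3 :=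
    h1.continuousAt.eventually (isOpen_ball.mem_nhds (by rw [h2]; exact hz))
  filter_upwards [e1, e2, hc.eventually e3, hc.eventually h3] with r a1 a2 a3 a4
  have hχ : χ (f (q r.1 (𝓕.σ i r.1 r.2))) = r.1 := by
    rw [hM.fib _ a1, χ.right_inv (hM.sub a1)]
  rw [hχ] at a4
  obtain ⟨δ, hδ⟩ := (hM.eq _ a1 _ _).1 a4
  obtain ⟨-, h8⟩ := 𝓕.inj i _ a1 _ a3 _ a2 δ hδ
  show γ • 𝓕.σ i r.1 r.2 = γ • 𝓕.σ i r.1 (ζ (q r.1 (γ • 𝓕.σ i r.1 r.2)))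
  rw [q_smul_of hM a1, h8]

end model

variable {p d : ℕ} {X X₁ Y Y₁ : Type} [TopologicalSpace X] [T2Space X] [ChartedSpace (Cm (p + d)) X]
  [TopologicalSpace X₁] [ChartedSpace (Cm (p + d)) X₁] [TopologicalSpace Y]
  [ChartedSpace (Cm p) Y] [TopologicalSpace Y₁] [ChartedSpace (Cm p) Y₁]
  {E Γ E₁ Γ₁ : Type} [TopologicalSpace E] [Group Γ] [MulAction Γ E] [ContinuousConstSMul Γ E]
  [TopologicalSpace E₁] [Group Γ₁] [MulAction Γ₁ E₁] [ContinuousConstSMul Γ₁ E₁]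
  [IsManifold 𝓘(ℂ, Cm (p + d)) ω X] [IsManifold 𝓘(ℂ, Cm (p + d)) ω X₁]
  [IsManifold 𝓘(ℂ, Cm p) ω Y] [IsManifold 𝓘(ℂ, Cm p) ω Y₁]
  {f : X → Y} {f₁ : X₁ → Y₁} {u : X₁ → X} {v : Y₁ → Y} {hv : Mod0 (n := p) v}
  {𝓕 : Fam p d E Γ} {q : Cm p → E → X} {χ : OpenPartialHomeomorph Y (Cm p)}
  {𝓕₁ : Fam p d E₁ Γ₁} {q₁ : Cm p → E₁ → X₁} {χ₁ : OpenPartialHomeomorph Y₁ (Cm p)}
  {B : Set (Cm p)}

/-- `A₁` is holomorphic in the sheets, over `B` -/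
def IsHolA (hv : Mod0 (n := p) v) (χ : OpenPartialHomeomorph Y (Cm p))
    (χ₁ : OpenPartialHomeomorph Y₁ (Cm p)) (𝓕₁ : Fam p d E₁ Γ₁) (B : Set (Cm p))
    (A₁ : Cm p → E₁ → ℂ) : Prop :=
  ∀ t ∈ B, ∀ i, ∀ z ∈ ball (0 : Cm d) 3, ∀ γ : Γ₁,
    AnalyticAt ℂ (fun r : Cm p × Cm d => A₁ r.1 (γ • 𝓕₁.σ i r.1 r.2)) (par hv χ χ₁ t, z)

namespace IsPr

/-- the parameters of `f₁` -/
theorem par_eq (h : IsPr f f₁ u hv 𝓕 q χ 𝓕₁ q₁ χ₁ B) {t : Cm p} (ht : t ∈ B) (e : E₁) :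
    χ₁ (f₁ (q₁ (par hv χ χ₁ t) e)) = par hv χ χ₁ t := by
  rw [h.fib₁ ht e]
  rfl

theorem tendsto_par (h : IsPr f f₁ u hv 𝓕 q χ 𝓕₁ q₁ χ₁ B) (x : Tot B E₁) :
    Tendsto (fun x : Tot B E₁ => (par hv χ χ₁ x.1, x.2)) (𝓝 x)
      (𝓝 (par hv χ χ₁ x.1, x.2)) := by
  have h1 : ContinuousAt (fun r : Cm p × E₁ => (par hv χ χ₁ r.1, r.2)) ((x.1 : Cm p), x.2) :=
    (ContinuousAt.comp (g := par hv χ χ₁) (f := fun r : Cm p × E₁ => r.1)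
      (x := ((x.1 : Cm p), x.2)) (h.par_cont x.1.2) continuousAt_fst).prodMk continuousAt_snd
  exact h1.tendsto.comp tendsto_tot

/-- `A₁` is continuous -/
theorem cont_A (h : IsPr f f₁ u hv 𝓕 q χ 𝓕₁ q₁ χ₁ B) {A₁ : Cm p → E₁ → ℂ}
    (hA : IsHolA hv χ χ₁ 𝓕₁ B A₁) : Continuous fun x : Tot B E₁ => A₁ (par hv χ χ₁ x.1) x.2 := by
  rw [continuous_iff_continuousAt]
  intro x
  obtain ⟨γ, i, z, hz, he⟩ := 𝓕₁.cover _ (h.sub₁ _ x.1.2).2 x.2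
  have hz3 : z ∈ ball (0 : Cm d) 3 := Sh.mem3 hz
  have h1 : ContinuousAt (fun r : Cm p × E₁ => A₁ r.1 r.2) (par hv χ χ₁ x.1, x.2) := by
    show Tendsto _ _ _
    rw [← he, ← fam_map_nhds_smul 𝓕₁ γ i (h.sub₁ _ x.1.2).2 hz3, tendsto_map'_iff]
    exact (hA _ x.1.2 i z hz3 γ).continuousAt
  exact h1.tendsto.comp (h.tendsto_par x)

/-- the points off the exceptional set are dense in the total space -/
theorem dense₁ (h : IsPr f f₁ u hv 𝓕 q χ 𝓕₁ q₁ χ₁ B) (hd : Dense (excSet (Cm (p + d)) u)ᶜ)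
    (x : Tot B E₁) {O : Set (Tot B E₁)} (hO : O ∈ 𝓝 x) :
    ∃ x' ∈ O, q₁ (par hv χ χ₁ x'.1) x'.2 ∉ excSet (Cm (p + d)) u := by
  have h1 := h.tot₁.locHom (h.isOpen_Z₀.preimage (Md.of h.mu).cont)
  obtain ⟨e, he, hee⟩ : ∃ e : OpenPartialHomeomorph (Tot B E₁) X₁, x ∈ e.source ∧
      (fun x : Tot B E₁ => q₁ (par hv χ χ₁ x.1) x.2) = (e : Tot B E₁ → X₁) := h1 x
  have h2 : e '' (O ∩ e.source) ∈ 𝓝 (e x) :=
    e.image_mem_nhds he (inter_mem hO (e.open_source.mem_nhds he))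
  obtain ⟨z, hz, ⟨x', ⟨hx', -⟩, rfl⟩⟩ := hd.inter_nhds_nonempty h2
  refine ⟨x', hx', ?_⟩
  have h3 : q₁ (par hv χ χ₁ x'.1) x'.2 = e x' := congrFun hee x'
  rw [← h3] at hz
  exact hz

variable {L : Tot B E₁ → Tot B E}

/-- the pull back of `A₁`, off `N` -/
theorem loc_off (h : IsPr f f₁ u hv 𝓕 q χ 𝓕₁ q₁ χ₁ B)
    (hf₁ : ContMDiff 𝓘(ℂ, Cm (p + d)) 𝓘(ℂ, Cm p) ω f₁)
    (hL : IsL q (fun t e => q₁ (par hv χ χ₁ t) e) u L)
    (hinj : ∀ x x', L x = L x' → q₁ (par hv χ χ₁ x.1) x.2 ∉ excSet (Cm (p + d)) u → x = x')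
    {A₁ : Cm p → E₁ → ℂ} (hA : IsHolA hv χ χ₁ 𝓕₁ B A₁) {x : Tot B E₁}
    (hx : q₁ (par hv χ χ₁ x.1) x.2 ∉ excSet (Cm (p + d)) u) :
    ∃ Φ : X → ℂ, HolV (Cm (p + d)) Φ (q (L x).1 (L x).2) ∧
      ∀ᶠ y in 𝓝 (L x), ∀ x', L x' = y → A₁ (par hv χ χ₁ x'.1) x'.2 = Φ (q y.1 y.2) := by
  obtain ⟨s, s1, s2, s3⟩ := hL.exists_inv h.tot h.tot₁ (Md.of h.mu) hx
  have ht := (h.sub₁ _ x.1.2).2
  obtain ⟨γ, i, z, hz, he⟩ := 𝓕₁.cover _ ht x.2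
  have hz3 : z ∈ ball (0 : Cm d) 3 := Sh.mem3 hz
  obtain ⟨ζ, z1, z2, z3⟩ := sheet_co h.M₁ ht i hz3 γ
  rw [he] at z3
  set z₁ := q₁ (par hv χ χ₁ x.1) x.2 with hz₁
  have hz₁' : q₁ (par hv χ χ₁ x.1) (𝓕₁.σ i (par hv χ χ₁ x.1) z) = z₁ := by
    rw [hz₁, ← he, q_smul_of h.M₁ ht]
  rw [hz₁'] at z1 z2
  have hfz : f₁ z₁ = inv0 hv (χ.symm x.1) := h.fib₁ x.1.2 _
  have hχz : χ₁ (f₁ z₁) = par hv χ χ₁ x.1 := h.par_eq x.1.2 _
  -- the function on `X₁`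
  set Ψ : X₁ → ℂ := fun w => A₁ (χ₁ (f₁ w)) (γ • 𝓕₁.σ i (χ₁ (f₁ w)) (ζ w)) with hΨ
  have hΨh : HolV (Cm (p + d)) Ψ z₁ := by
    have h1 : ContMDiffAt 𝓘(ℂ, Cm (p + d)) 𝓘(ℂ, Cm p) ω (fun w => χ₁ (f₁ w)) z₁ := by
      have h2 : ContMDiffAt 𝓘(ℂ, Cm p) 𝓘(ℂ, Cm p) ω χ₁ (f₁ z₁) :=
        contMDiffAt_of_mem_maximalAtlas (IsManifold.subset_maximalAtlas h.M₁.atlas)
          (by rw [hfz]; exact (h.sub₁ _ x.1.2).1)
      exact ContMDiffAt.comp z₁ (g := χ₁) (f := f₁) h2 (hf₁ z₁)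
    have h8 : ContMDiffAt 𝓘(ℂ, Cm (p + d)) 𝓘(ℂ, Cm p × Cm d) ω
        (fun w => (χ₁ (f₁ w), ζ w)) z₁ := by
      rw [modelWithCornersSelf_prod, ← chartedSpaceSelf_prod]
      exact h1.prodMk z1
    have h3 := (hA _ x.1.2 i z hz3 γ).contDiffAt (n := ω)
    have h4 : ContMDiffAt 𝓘(ℂ, Cm p × Cm d) 𝓘(ℂ, ℂ) ω
        (fun r : Cm p × Cm d => A₁ r.1 (γ • 𝓕₁.σ i r.1 r.2)) (χ₁ (f₁ z₁), ζ z₁) := by
      rw [hχz, z2]
      exact h3.contMDiffAt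
    exact ContMDiffAt.comp z₁ (g := fun r : Cm p × Cm d => A₁ r.1 (γ • 𝓕₁.σ i r.1 r.2))
      (f := fun w => (χ₁ (f₁ w), ζ w)) h4 h8
  refine ⟨fun w => Ψ (inv0 h.mu w), ?_, ?_⟩
  · rw [hL.eq]
    exact holV_of_inv0 h.mu hx hΨh
  · have e1 : ∀ᶠ y in 𝓝 (L x), (s y).2 =
        γ • 𝓕₁.σ i (par hv χ χ₁ (s y).1) (ζ (q₁ (par hv χ χ₁ (s y).1) (s y).2)) := by
      have h1 : Tendsto s (𝓝 (L x)) (𝓝 x) := by
        have := s1.tendsto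
        rwa [s2] at this
      exact ((h.tendsto_par x).comp h1).eventually z3
    have e2 : ∀ᶠ y in 𝓝 (L x), q₁ (par hv χ χ₁ (s y).1) (s y).2 ∉ excSet (Cm (p + d)) u := by
      have h1 : Tendsto s (𝓝 (L x)) (𝓝 x) := by
        have := s1.tendsto
        rwa [s2] at this
      have h2 : Tendsto (fun y : Tot B E₁ => q₁ (par hv χ χ₁ y.1) y.2) (𝓝 x) (𝓝 z₁) :=
        (continuous_subtype_val.comp h.tot₁.continuous_Qm).tendsto x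
      exact (h2.comp h1).eventually (h.mu.eclosed.isOpen_compl.mem_nhds hx)
    filter_upwards [s3, e1, e2] with y a1 a2 a3
    intro x' hx'
    have h3 : s y = x' := hinj _ _ (a1.trans hx'.symm) a3
    rw [h3] at a2 a3
    have h4 : u (q₁ (par hv χ χ₁ x'.1) x'.2) = q y.1 y.2 := by
      rw [← hx']
      exact (hL.eq x').symm
    have h5 : inv0 h.mu (q y.1 y.2) = q₁ (par hv χ χ₁ x'.1) x'.2 := by
      rw [← h4, inv0_u h.mu a3]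
    show _ = Ψ (inv0 h.mu (q y.1 y.2))
    rw [h5, hΨ]
    simp only
    rw [h.par_eq x'.1.2, ← a2]

/-- **descent** -/
theorem descend (h : IsPr f f₁ u hv 𝓕 q χ 𝓕₁ q₁ χ₁ B)
    (hf₁ : ContMDiff 𝓘(ℂ, Cm (p + d)) 𝓘(ℂ, Cm p) ω f₁) (hd : Dense (excSet (Cm (p + d)) u)ᶜ)
    (hN : IsSmall2 (Cm (p + d)) (u '' excSet (Cm (p + d)) u))
    (hL : IsL q (fun t e => q₁ (par hv χ χ₁ t) e) u L) (hs : Function.Surjective L)
    (hinj : ∀ x x', L x = L x' → q₁ (par hv χ χ₁ x.1) x.2 ∉ excSet (Cm (p + d)) u → x = x')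
    {A₁ : Cm p → E₁ → ℂ} (hA : IsHolA hv χ χ₁ 𝓕₁ B A₁) (y₀ : Tot B E) :
    ∃ Φ : X → ℂ, HolV (Cm (p + d)) Φ (q y₀.1 y₀.2) ∧
      ∀ᶠ y in 𝓝 y₀, ∀ x, L x = y → A₁ (par hv χ χ₁ x.1) x.2 = Φ (q y.1 y.2) := by
  classical
  obtain ⟨e, he, hee⟩ : ∃ e : OpenPartialHomeomorph (Tot B E) X, y₀ ∈ e.source ∧
      (fun x : Tot B E => q x.1 x.2) = (e : Tot B E → X) := h.tot.locHom h.isOpen_Z₀ y₀
  have heq : ∀ y : Tot B E, q y.1 y.2 = e y := fun y => congrFun hee y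
  set A : Tot B E → ℂ := fun y => A₁ (par hv χ χ₁ (Function.surjInv hs y).1)
    (Function.surjInv hs y).2 with hAdef
  have hmem : ∀ x : Tot B E₁, e (L x) ∈ u '' excSet (Cm (p + d)) u ↔
      q₁ (par hv χ χ₁ x.1) x.2 ∈ excSet (Cm (p + d)) u := fun x => by
    rw [← heq, hL.eq, h.mu.mem_image]
  obtain ⟨Φ, hΦ, hΦe⟩ := H485.Gen.har (p + d) X (u '' excSet (Cm (p + d)) u) e.target
    (fun x => A (e.symm x)) hN e.open_target (by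
      intro x hx hxN
      set y := e.symm x with hy
      obtain ⟨x₁, hx₁⟩ := hs y
      have hyx : e y = x := e.right_inv hx
      have h1 : q₁ (par hv χ χ₁ x₁.1) x₁.2 ∉ excSet (Cm (p + d)) u := by
        rw [← hmem, hx₁, hyx]
        exact hxN
      obtain ⟨Φ, h2, h3⟩ := h.loc_off hf₁ hL hinj hA h1
      rw [hx₁, heq, hyx] at h2
      rw [hx₁] at h3
      refine HolV.congr h2 ?_
      have h4 : Tendsto e.symm (𝓝 x) (𝓝 y) := e.continuousAt_symm hx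
      filter_upwards [h4.eventually h3, e.open_target.mem_nhds hx] with x' a b
      have h5 := a (Function.surjInv hs (e.symm x')) (Function.surjInv_eq hs _)
      show A (e.symm x') = Φ x'
      rw [hAdef]
      simp only
      rw [h5, heq, e.right_inv b])
  -- the two functions agree on the preimage of the source
  have key : ∀ x : Tot B E₁, L x ∈ e.source → A₁ (par hv χ χ₁ x.1) x.2 = Φ (e (L x)) := by
    intro x hx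
    have hne : (𝓝[{x' | q₁ (par hv χ χ₁ x'.1) x'.2 ∉ excSet (Cm (p + d)) u}] x).NeBot := by
      rw [← mem_closure_iff_nhdsWithin_neBot, mem_closure_iff_nhds]
      intro O hO
      obtain ⟨x', h1, h2⟩ := h.dense₁ hd x hO
      exact ⟨x', h1, h2⟩
    have c1 : Tendsto (fun x : Tot B E₁ => A₁ (par hv χ χ₁ x.1) x.2)
        (𝓝[{x' | q₁ (par hv χ χ₁ x'.1) x'.2 ∉ excSet (Cm (p + d)) u}] x)
        (𝓝 (A₁ (par hv χ χ₁ x.1) x.2)) :=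
      ((h.cont_A hA).tendsto x).mono_left nhdsWithin_le_nhds
    have c2 : Tendsto (fun x : Tot B E₁ => Φ (e (L x)))
        (𝓝[{x' | q₁ (par hv χ χ₁ x'.1) x'.2 ∉ excSet (Cm (p + d)) u}] x)
        (𝓝 (Φ (e (L x)))) := by
      have c3 : ContinuousAt (fun x : Tot B E₁ => Φ (e (L x))) x := by
        have c4 : ContinuousAt Φ (e (L x)) := (hΦ _ (e.map_source hx)).continuousAt
        have c5 : ContinuousAt e (L x) := e.continuousAt hx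
        exact ContinuousAt.comp (g := Φ) (f := fun x : Tot B E₁ => e (L x)) c4
          (ContinuousAt.comp (g := e) (f := L) c5 hL.cont.continuousAt)
      exact c3.tendsto.mono_left nhdsWithin_le_nhds
    refine tendsto_nhds_unique_of_eventuallyEq c1 c2 ?_
    have h1 : ∀ᶠ x' in 𝓝 x, L x' ∈ e.source :=
      hL.cont.continuousAt.eventually (e.open_source.mem_nhds hx)
    filter_upwards [mem_nhdsWithin_of_mem_nhds h1, self_mem_nhdsWithin] with x' a b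
    have hb : e (L x') ∉ u '' excSet (Cm (p + d)) u := by
      rw [hmem]
      exact b
    rw [hΦe _ (e.map_source a) hb, e.left_inv a, hAdef]
    simp only
    rw [← hinj x' (Function.surjInv hs (L x')) (Function.surjInv_eq hs _).symm b]
  refine ⟨Φ, ?_, ?_⟩
  · rw [heq]
    exact hΦ _ (e.map_source he)
  · filter_upwards [e.open_source.mem_nhds he] with y hy x hx
    rw [key x (by rw [hx]; exact hy), heq, hx]

end IsPr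

end Vale.Agent.P281.H603.C
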