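import Vale.Agent.P281.H603.C.Map
import Vale.Agent.P281.H603.K.KodN0
import Vale.Agent.P281.H603.TE.Sub
import Vale.Agent.P281.H603.TE.Lift

/-!
# P281, class C (helper603), block M3: the models of `f` and `f₁`
-/

open Set Filter Metric Vale.Agent.P281 Vale.Agent.P281.H713 Vale.Agent.P281.ISO
open scoped Topology ContDiff Manifold

set_option linter.unusedSectionVars false

noncomputable section

namespace Vale.Agent.P281.H603.C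

open Vale.Agent.P281.H64.TK Vale.Agent.P281.H603.K Vale.Agent.P281.H603.TE
open Vale.Agent.P281.H603.KodN Vale.Agent.P281.H64.Gen Vale.Agent.P272.K

section model

variable {n p d : ℕ} {Z Y : Type} [TopologicalSpace Z] [ChartedSpace (Cm n) Z]
  [TopologicalSpace Y] [ChartedSpace (Cm p) Y] {E Γ : Type} [TopologicalSpace E] [Group Γ]
  [MulAction Γ E] [ContinuousConstSMul Γ E] {f : Z → Y} {𝓕 : Fam p d E Γ}
  {χ : OpenPartialHomeomorph Y (Cm p)} {q : Cm p → E → Z}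

theorem q_smul_of (hM : Model (n := n) f 𝓕 χ q) {t : Cm p} (ht : t ∈ 𝓕.T) (γ : Γ) (e : E) :
    q t (γ • e) = q t e := ((hM.eq t ht e (γ • e)).2 ⟨γ, rfl⟩).symm

/-- `q` is jointly continuous -/
theorem cont_of_model (hM : Model (n := n) f 𝓕 χ q) {t : Cm p} (ht : t ∈ 𝓕.T) (e : E) :
    ContinuousAt (fun r : Cm p × E => q r.1 r.2) (t, e) := by
  obtain ⟨γ, i, z, hz, rfl⟩ := 𝓕.cover t ht e
  have hz3 : z ∈ ball (0 : Cm d) 3 := Sh.mem3 hz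
  show Tendsto _ _ _
  rw [← fam_map_nhds_smul 𝓕 γ i ht hz3, tendsto_map'_iff]
  have h1 := (hM.hol i t ht z hz3).continuousAt
  have h2 : ∀ᶠ r : Cm p × Cm d in 𝓝 (t, z), q r.1 (𝓕.σ i r.1 r.2) =
      q r.1 (γ • 𝓕.σ i r.1 r.2) := by
    filter_upwards [(continuous_fst.tendsto (t, z)).eventually (𝓕.isOpen.mem_nhds ht)] with r hr
    exact (q_smul_of hM hr γ _).symm
  show Tendsto (fun r : Cm p × Cm d => q r.1 (γ • 𝓕.σ i r.1 r.2)) (𝓝 (t, z))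
    (𝓝 (q t (γ • 𝓕.σ i t z)))
  rw [q_smul_of hM ht]
  exact Tendsto.congr' h2 h1

/-- the group acts properly -/
theorem disc_of_fam (𝓕 : Fam p d E Γ) {t : Cm p} (ht : t ∈ 𝓕.T) (e : E) : ∃ U ∈ 𝓝 (t, e),
    ∀ (t' : Cm p) (e' : E) (γ : Γ), (t', e') ∈ U → (t', γ • e') ∈ U → γ = 1 := by
  obtain ⟨γ₀, i, z, hz, rfl⟩ := 𝓕.cover t ht e
  have hz3 : z ∈ ball (0 : Cm d) 3 := Sh.mem3 hz
  refine ⟨(fun r : Cm p × Cm d => (r.1, γ₀ • 𝓕.σ i r.1 r.2)) '' (𝓕.T ×ˢ ball 0 3), ?_, ?_⟩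
  · rw [← fam_map_nhds_smul 𝓕 γ₀ i ht hz3]
    exact image_mem_map ((𝓕.isOpen.prod isOpen_ball).mem_nhds ⟨ht, hz3⟩)
  · rintro t' e' γ ⟨⟨s, w⟩, ⟨hs, hw⟩, h1⟩ ⟨⟨s', w'⟩, ⟨hs', hw'⟩, h2⟩
    obtain ⟨rfl, rfl⟩ := Prod.ext_iff.1 h1
    obtain ⟨h3, h4⟩ := Prod.ext_iff.1 h2
    have h3' : s' = s := h3
    subst h3'
    have h4' : γ₀ • 𝓕.σ i s' w' = γ • γ₀ • 𝓕.σ i s' w := h4
    have h5 : (γ₀⁻¹ * γ * γ₀) • 𝓕.σ i s' w = 𝓕.σ i s' w' := by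
      rw [mul_smul, mul_smul, ← h4', inv_smul_smul]
    obtain ⟨h6, -⟩ := 𝓕.inj i s' hs w hw w' hw' _ h5
    have h7 : γ = γ₀ * (γ₀⁻¹ * γ * γ₀) * γ₀⁻¹ := by group
    rw [h7, h6]
    group

/-- **a model, as a covering of the total space** -/
theorem totCov_of (hM : Model (n := n) f 𝓕 χ q) (hf : Continuous f) {τ : Cm p → Cm p}
    {B : Set (Cm p)} {Z₀ : Set Z} {g : Z → Cm p} (hτ : ∀ t ∈ B, τ t ∈ 𝓕.T)
    (hτc : ∀ t ∈ B, ContinuousAt τ t) (hZ : IsOpen Z₀)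
    (hmem : ∀ t ∈ B, ∀ e, q (τ t) e ∈ Z₀ ∧ g (q (τ t) e) = t) (hmaps : ∀ x ∈ Z₀, g x ∈ B)
    (hg : ∀ x ∈ Z₀, ContinuousAt g x)
    (hfx : ∀ x ∈ Z₀, f x ∈ χ.source ∧ χ (f x) = τ (g x)) :
    TotCov Γ B Z₀ g fun t e => q (τ t) e where
  mem t ht e := (hmem t ht e).1
  time t ht e := (hmem t ht e).2
  maps := hmaps
  eq t ht e e' := hM.eq _ (hτ t ht) e e'
  surj x hx := by
    obtain ⟨h1, h2⟩ := hfx x hx
    obtain ⟨e, he⟩ := hM.surj x h1 (by rw [h2]; exact hτ _ (hmaps x hx))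
    exact ⟨e, by rw [← h2]; exact he⟩
  cont t ht e := by
    have h1 := cont_of_model hM (hτ t ht) e
    refine ContinuousAt.comp (g := fun r : Cm p × E => q r.1 r.2)
      (f := fun r : Cm p × E => (τ r.1, r.2)) h1 ?_
    exact (ContinuousAt.comp (g := τ) (hτc t ht) continuousAt_fst).prodMk continuousAt_snd
  sec t ht e := by
    obtain ⟨γ, i, z, hz, rfl⟩ := 𝓕.cover (τ t) (hτ t ht) e
    have hz3 : z ∈ ball (0 : Cm d) 3 := Sh.mem3 hz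
    obtain ⟨ζ, h1, h2, h3⟩ := hM.coord i (τ t) (hτ t ht) z hz3
    have hq := q_smul_of hM (hτ t ht) γ (𝓕.σ i (τ t) z)
    have hx := hmem t ht (𝓕.σ i (τ t) z)
    obtain ⟨hx1, hx2⟩ := hfx _ hx.1
    rw [hx.2] at hx2
    have hχ : ContinuousAt (fun x => χ (f x)) (q (τ t) (𝓕.σ i (τ t) z)) :=
      ContinuousAt.comp (g := χ) (χ.continuousAt hx1) hf.continuousAt
    have hpair : ContinuousAt (fun x => (χ (f x), ζ x)) (q (τ t) (𝓕.σ i (τ t) z)) :=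
      hχ.prodMk h1.continuousAt
    have hσ : ContinuousAt (fun r : Cm p × Cm d => γ • 𝓕.σ i r.1 r.2) (τ t, z) := by
      have h4 := (fam_map_nhds_smul 𝓕 γ i (hτ t ht) hz3).le
      have h5 : Tendsto (fun r : Cm p × Cm d => (r.1, γ • 𝓕.σ i r.1 r.2)) (𝓝 (τ t, z))
          (𝓝 (τ t, γ • 𝓕.σ i (τ t) z)) := h4
      exact (continuous_snd.tendsto _).comp h5
    refine ⟨fun x => γ • 𝓕.σ i (χ (f x)) (ζ x), ?_, ?_, ?_⟩
    · show ContinuousAt _ (q (τ t) (γ • 𝓕.σ i (τ t) z))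
      rw [hq]
      refine ContinuousAt.comp (g := fun r : Cm p × Cm d => γ • 𝓕.σ i r.1 r.2)
        (f := fun x => (χ (f x), ζ x)) ?_ hpair
      show ContinuousAt _ (χ (f (q (τ t) (𝓕.σ i (τ t) z))), ζ (q (τ t) (𝓕.σ i (τ t) z)))
      rw [hx2, h2]
      exact hσ
    · show γ • 𝓕.σ i (χ (f (q (τ t) (γ • 𝓕.σ i (τ t) z))))
        (ζ (q (τ t) (γ • 𝓕.σ i (τ t) z))) = γ • 𝓕.σ i (τ t) z
      rw [hq, hx2, h2]
    · show ∀ᶠ x in 𝓝 (q (τ t) (γ • 𝓕.σ i (τ t) z)), q (τ (g x)) (γ • 𝓕.σ i (χ (f x)) (ζ x)) = x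
      rw [hq]
      filter_upwards [h3, hZ.mem_nhds hx.1] with x b1 b2
      obtain ⟨-, c2⟩ := hfx x b2
      rw [← c2, q_smul_of hM (by rw [c2]; exact hτ _ (hmaps x b2))]
      exact b1
  gcont := hg
  disc t ht e := by
    obtain ⟨U, hU, h1⟩ := disc_of_fam 𝓕 (hτ t ht) e
    have h2 : Tendsto (fun r : Cm p × E => (τ r.1, r.2)) (𝓝 (t, e)) (𝓝 (τ t, e)) :=
      ((hτc t ht).tendsto.comp (continuous_fst.tendsto (t, e))).prodMk_nhds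
        (continuous_snd.tendsto (t, e))
    exact ⟨_, h2 hU, fun t' e' γ _ h3 h4 => h1 (τ t') e' γ h3 h4⟩

end model

section md

variable {n : ℕ} {X X₁ : Type} [TopologicalSpace X] [ChartedSpace (Cm n) X]
  [TopologicalSpace X₁] [ChartedSpace (Cm n) X₁] [IsManifold 𝓘(ℂ, Cm n) ω X]
  [IsManifold 𝓘(ℂ, Cm n) ω X₁] {u : X₁ → X}

theorem Md.of (h : Mod0 (n := n) u) :
    Md u (excSet (Cm n) u) (u '' excSet (Cm n) u) (inv0 h) where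
  cont := continuous_iff_continuousAt.2 fun z => (h.hol z).continuousAt
  right := u_inv0 h
  inj := h.inj
  mem z := h.mem_image
  eclosed := h.eclosed
  nclosed := h.closed _ h.eclosed
  tend z hz := tendsto_inv0 h hz

end md

section pair

variable {p d : ℕ} {X X₁ Y Y₁ : Type} [TopologicalSpace X] [ChartedSpace (Cm (p + d)) X]
  [TopologicalSpace X₁] [ChartedSpace (Cm (p + d)) X₁] [TopologicalSpace Y]
  [ChartedSpace (Cm p) Y] [TopologicalSpace Y₁] [ChartedSpace (Cm p) Y₁]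
  {E Γ E₁ Γ₁ : Type} [TopologicalSpace E] [Group Γ] [MulAction Γ E] [ContinuousConstSMul Γ E]
  [TopologicalSpace E₁] [Group Γ₁] [MulAction Γ₁ E₁] [ContinuousConstSMul Γ₁ E₁]
  [IsManifold 𝓘(ℂ, Cm (p + d)) ω X] [IsManifold 𝓘(ℂ, Cm (p + d)) ω X₁]
  [IsManifold 𝓘(ℂ, Cm p) ω Y] [IsManifold 𝓘(ℂ, Cm p) ω Y₁]

/-- the change of parameters -/
def par {v : Y₁ → Y} (hv : Mod0 (n := p) v) (χ : OpenPartialHomeomorph Y (Cm p))
    (χ₁ : OpenPartialHomeomorph Y₁ (Cm p)) (t : Cm p) : Cm p := χ₁ (inv0 hv (χ.symm t))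

/-- Models of `f` and `f₁` at corresponding points. -/
structure IsPr (f : X → Y) (f₁ : X₁ → Y₁) (u : X₁ → X) {v : Y₁ → Y} (hv : Mod0 (n := p) v)
    (𝓕 : Fam p d E Γ) (q : Cm p → E → X) (χ : OpenPartialHomeomorph Y (Cm p))
    (𝓕₁ : Fam p d E₁ Γ₁) (q₁ : Cm p → E₁ → X₁) (χ₁ : OpenPartialHomeomorph Y₁ (Cm p))
    (B : Set (Cm p)) : Prop where
  hf : Continuous f
  hf₁ : Continuous f₁
  mu : Mod0 (n := p + d) u
  comm : ∀ x, f (u x) = v (f₁ x)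
  M : Model (n := p + d) f 𝓕 χ q
  M₁ : Model (n := p + d) f₁ 𝓕₁ χ₁ q₁
  convex : Convex ℝ B
  isOpen : IsOpen B
  ne : B.Nonempty
  sub : B ⊆ 𝓕.T
  off : ∀ t ∈ B, χ.symm t ∉ v '' excSet (Cm p) v
  sub₁ : ∀ t ∈ B, inv0 hv (χ.symm t) ∈ χ₁.source ∧ par hv χ χ₁ t ∈ 𝓕₁.T

variable {f : X → Y} {f₁ : X₁ → Y₁} {u : X₁ → X} {v : Y₁ → Y} {hv : Mod0 (n := p) v}
  {𝓕 : Fam p d E Γ} {q : Cm p → E → X} {χ : OpenPartialHomeomorph Y (Cm p)}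
  {𝓕₁ : Fam p d E₁ Γ₁} {q₁ : Cm p → E₁ → X₁} {χ₁ : OpenPartialHomeomorph Y₁ (Cm p)}
  {B : Set (Cm p)}

namespace IsPr

/-- the part of `X` over `B` -/
def Z₀ (f : X → Y) (χ : OpenPartialHomeomorph Y (Cm p)) (B : Set (Cm p)) : Set X :=
  {x | f x ∈ χ.source ∧ χ (f x) ∈ B}

theorem isOpen_Z₀ (h : IsPr f f₁ u hv 𝓕 q χ 𝓕₁ q₁ χ₁ B) : IsOpen (Z₀ f χ B) :=
  (χ.isOpen_inter_preimage h.isOpen).preimage h.hf

theorem χcont (hf : Continuous f) {x : X} (hx : f x ∈ χ.source) :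
    ContinuousAt (fun x => χ (f x)) x :=
  ContinuousAt.comp (g := χ) (χ.continuousAt hx) hf.continuousAt

theorem tot (h : IsPr f f₁ u hv 𝓕 q χ 𝓕₁ q₁ χ₁ B) :
    TotCov Γ B (Z₀ f χ B) (fun x => χ (f x)) q := by
  refine totCov_of (τ := fun t => t) h.M h.hf (fun t ht => h.sub ht) (fun t _ => continuousAt_id)
    h.isOpen_Z₀ (fun t ht e => ?_) (fun x hx => hx.2) (fun x hx => χcont h.hf hx.1)
    fun x hx => ⟨hx.1, rfl⟩
  have h1 := h.M.fib t (h.sub ht) e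
  have h2 : t ∈ χ.target := h.M.sub (h.sub ht)
  have h3 : χ (f (q t e)) = t := by rw [h1, χ.right_inv h2]
  refine ⟨⟨?_, ?_⟩, h3⟩
  · rw [h1]
    exact χ.map_target h2
  · show χ (f (q t e)) ∈ B
    rw [h3]
    exact ht

/-- `v⁻¹` over `B` -/
theorem inv_eq (h : IsPr f f₁ u hv 𝓕 q χ 𝓕₁ q₁ χ₁ B) {t : Cm p} (ht : t ∈ B) {y : Y₁}
    (hy : v y = χ.symm t) : inv0 hv (χ.symm t) = y := by
  rw [← hy]
  refine inv0_u hv fun hcon => h.off t ht ?_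
  rw [← hy]
  exact ⟨y, hcon, rfl⟩

theorem inv_off (h : IsPr f f₁ u hv 𝓕 q χ 𝓕₁ q₁ χ₁ B) {t : Cm p} (ht : t ∈ B) :
    inv0 hv (χ.symm t) ∉ excSet (Cm p) v := fun hcon =>
  h.off t ht ⟨_, hcon, u_inv0 hv _⟩

theorem par_cont (h : IsPr f f₁ u hv 𝓕 q χ 𝓕₁ q₁ χ₁ B) {t : Cm p} (ht : t ∈ B) :
    ContinuousAt (par hv χ χ₁) t := by
  have h1 : Tendsto χ.symm (𝓝 t) (𝓝 (χ.symm t)) :=
    (χ.symm.continuousAt (h.M.sub (h.sub ht))).tendsto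
  have h2 := tendsto_inv0 hv (h.inv_off ht)
  rw [u_inv0 hv] at h2
  exact (χ₁.continuousAt (h.sub₁ t ht).1).tendsto.comp (h2.comp h1)

theorem fib₁ (h : IsPr f f₁ u hv 𝓕 q χ 𝓕₁ q₁ χ₁ B) {t : Cm p} (ht : t ∈ B) (e : E₁) :
    f₁ (q₁ (par hv χ χ₁ t) e) = inv0 hv (χ.symm t) := by
  rw [h.M₁.fib _ (h.sub₁ t ht).2 e, par, χ₁.left_inv (h.sub₁ t ht).1]

theorem tot₁ (h : IsPr f f₁ u hv 𝓕 q χ 𝓕₁ q₁ χ₁ B) :
    TotCov Γ₁ B (u ⁻¹' Z₀ f χ B) (fun x => χ (f (u x))) fun t e => q₁ (par hv χ χ₁ t) e := by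
  have hu : Continuous u := (Md.of h.mu).cont
  refine totCov_of (τ := par hv χ χ₁) h.M₁ h.hf₁ (fun t ht => (h.sub₁ t ht).2)
    (fun t ht => h.par_cont ht) (h.isOpen_Z₀.preimage hu) (fun t ht e => ?_) (fun x hx => hx.2)
    (fun x hx => ?_) fun x hx => ?_
  · have h2 : t ∈ χ.target := h.M.sub (h.sub ht)
    have h3 : f (u (q₁ (par hv χ χ₁ t) e)) = χ.symm t := by
      rw [h.comm, h.fib₁ ht, u_inv0 hv]
    have h4 : χ (f (u (q₁ (par hv χ χ₁ t) e))) = t := by rw [h3, χ.right_inv h2]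
    refine ⟨⟨?_, ?_⟩, h4⟩
    · rw [h3]
      exact χ.map_target h2
    · show χ (f (u (q₁ (par hv χ χ₁ t) e))) ∈ B
      rw [h4]
      exact ht
  · exact ContinuousAt.comp (g := fun x => χ (f x)) (χcont h.hf hx.1) hu.continuousAt
  · obtain ⟨hx1, hx2⟩ := hx
    have h5 : inv0 hv (χ.symm (χ (f (u x)))) = f₁ x := by
      refine h.inv_eq hx2 ?_
      rw [χ.left_inv hx1, h.comm]
    refine ⟨?_, ?_⟩
    · rw [← h5]
      exact (h.sub₁ _ hx2).1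
    · show χ₁ (f₁ x) = χ₁ (inv0 hv (χ.symm (χ (f (u x)))))
      rw [h5]

/-- the lifting -/
theorem exists_L [SimplyConnectedSpace E₁] (h : IsPr f f₁ u hv 𝓕 q χ 𝓕₁ q₁ χ₁ B) :
    ∃ L : Tot B E₁ → Tot B E, IsL q (fun t e => q₁ (par hv χ χ₁ t) e) u L := by
  obtain ⟨t, ht⟩ := h.ne
  have : LocallyPathConnectedSpace E₁ := locPath (𝓕₁.at _ (h.sub₁ t ht).2)
  exact C.exists_L h.tot h.tot₁ (Md.of h.mu) h.convex h.isOpen ⟨t, ht⟩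

end IsPr

end pair

end Vale.Agent.P281.H603.C
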