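import Vale.Agent.P281.H603.C.Desc

/-!
# P281, class C (helper603), block C1: the lifting `V` is holomorphic, transport of additive functions
-/

open Set Filter Metric Vale.Agent.P281 Vale.Agent.P281.H713 Vale.Agent.P281.ISO
open scoped Topology ContDiff Manifold

set_option linter.unusedSectionVars false

noncomputable section

namespace Vale.Agent.P281.H603.C

open Vale.Agent.P281.H64.TK Vale.Agent.P281.H603.K Vale.Agent.P281.H603.TE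
open Vale.Agent.P281.H603.KodN Vale.Agent.P281.H64.Gen Vale.Agent.P272.K

theorem eventually_prod {p : ℕ} {B : Set (Cm p)} (hB : IsOpen B) {E : Type} [TopologicalSpace E]
    {P : ↥B × E → Prop} {y₀ : ↥B × E} (h : ∀ᶠ y in 𝓝 y₀, P y) :
    ∀ᶠ r : Cm p × E in 𝓝 ((y₀.1 : Cm p), y₀.2), ∀ hr : r.1 ∈ B, P (⟨r.1, hr⟩, r.2) := by
  have h1 : Filter.map (Prod.map Subtype.val id : ↥B × E → Cm p × E) (𝓝 y₀) =
      𝓝 ((y₀.1 : Cm p), y₀.2) := (hB.isOpenEmbedding_subtypeVal.prodMap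
    (Topology.IsOpenEmbedding.id (X := E))).map_nhds_eq y₀
  rw [← h1, eventually_map]
  filter_upwards [h] with y hy hr
  exact hy

/-- neighbourhoods in the total space -/
theorem eventually_tot {p : ℕ} {B : Set (Cm p)} (hB : IsOpen B) {E : Type} [TopologicalSpace E]
    {P : Tot B E → Prop} {y₀ : Tot B E} (h : ∀ᶠ y in 𝓝 y₀, P y) :
    ∀ᶠ r : Cm p × E in 𝓝 ((y₀.1 : Cm p), y₀.2), ∀ hr : r.1 ∈ B, P (⟨r.1, hr⟩, r.2) :=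
  eventually_prod hB h

variable {p d : ℕ} {X X₁ Y Y₁ : Type} [TopologicalSpace X] [T2Space X] [ChartedSpace (Cm (p + d)) X]
  [TopologicalSpace X₁] [ChartedSpace (Cm (p + d)) X₁] [TopologicalSpace Y]
  [ChartedSpace (Cm p) Y] [TopologicalSpace Y₁] [ChartedSpace (Cm p) Y₁]
  {E Γ E₁ Γ₁ : Type} [TopologicalSpace E] [Group Γ] [MulAction Γ E] [ContinuousConstSMul Γ E]
  [TopologicalSpace E₁] [Group Γ₁] [MulAction Γ₁ E₁] [ContinuousConstSMul Γ₁ E₁]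
  [IsManifold 𝓘(ℂ, Cm (p + d)) ω X] [IsManifold 𝓘(ℂ, Cm (p + d)) ω X₁]
  [IsManifold 𝓘(ℂ, Cm p) ω Y] [IsManifold 𝓘(ℂ, Cm p) ω Y₁]
  {f : X → Y} {f₁ : X₁ → Y₁} {u : X₁ → X} {v : Y₁ → Y} {hv : Mod0 (n := p) v}
  {𝓕 : Fam p d E Γ} {q : Cm p → E → X} {χ : OpenPartialHomeomorph Y (Cm p)}
  {𝓕₁ : Fam p d E₁ Γ₁} {q₁ : Cm p → E₁ → X₁} {χ₁ : OpenPartialHomeomorph Y₁ (Cm p)}
  {B : Set (Cm p)} {L : Tot B E₁ → Tot B E}

/-- the lifting over `t` -/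
def Vt (L : Tot B E₁ → Tot B E) {t : Cm p} (ht : t ∈ B) (e : E₁) : E := (L (⟨t, ht⟩, e)).2

namespace IsPr

theorem Vt_eq (h : IsPr f f₁ u hv 𝓕 q χ 𝓕₁ q₁ χ₁ B)
    (hL : IsL q (fun t e => q₁ (par hv χ χ₁ t) e) u L) {t : Cm p} (ht : t ∈ B) (e : E₁) :
    L (⟨t, ht⟩, e) = (⟨t, ht⟩, Vt L ht e) :=
  Prod.ext (hL.fst h.tot h.tot₁ _) rfl

theorem Vt_q (h : IsPr f f₁ u hv 𝓕 q χ 𝓕₁ q₁ χ₁ B)
    (hL : IsL q (fun t e => q₁ (par hv χ χ₁ t) e) u L) {t : Cm p} (ht : t ∈ B) (e : E₁) :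
    q t (Vt L ht e) = u (q₁ (par hv χ χ₁ t) e) := by
  have h1 := hL.eq (⟨t, ht⟩, e)
  rw [h.Vt_eq hL ht] at h1
  exact h1

theorem Vt_cont (_h : IsPr f f₁ u hv 𝓕 q χ 𝓕₁ q₁ χ₁ B)
    (hL : IsL q (fun t e => q₁ (par hv χ χ₁ t) e) u L) {t : Cm p} (ht : t ∈ B) :
    Continuous (Vt L ht) := by
  have h1 : Continuous fun e : E₁ => ((⟨t, ht⟩, e) : Tot B E₁) := by
    show Continuous fun e : E₁ => ((⟨t, ht⟩, e) : ↥B × E₁)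
    exact continuous_const.prodMk continuous_id
  have h2 : Continuous (Prod.snd : ↥B × E → E) := continuous_snd
  exact h2.comp (hL.cont.comp h1)

theorem Vt_surj (h : IsPr f f₁ u hv 𝓕 q χ 𝓕₁ q₁ χ₁ B)
    (hL : IsL q (fun t e => q₁ (par hv χ χ₁ t) e) u L) (hs : Function.Surjective L) {t : Cm p}
    (ht : t ∈ B) : Function.Surjective (Vt L ht) := by
  intro e
  obtain ⟨⟨⟨t', ht'⟩, e₁⟩, hx⟩ := hs (⟨t, ht⟩, e)
  have h1 := hL.fst h.tot h.tot₁ (⟨t', ht'⟩, e₁)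
  rw [hx] at h1
  have h2 : t = t' := congrArg Subtype.val h1
  subst h2
  exact ⟨e₁, congrArg Prod.snd hx⟩

/-- **`V` is holomorphic** -/
theorem Vt_hol (h : IsPr f f₁ u hv 𝓕 q χ 𝓕₁ q₁ χ₁ B)
    (hL : IsL q (fun t e => q₁ (par hv χ χ₁ t) e) u L) {t : Cm p} (ht : t ∈ B)
    {i : Fin 𝓕₁.N} {z : Cm d} (hz : z ∈ ball (0 : Cm d) 3) {γ₁ : Γ₁} {j : Fin 𝓕.N} {w : Cm d}
    (hw : w ∈ ball (0 : Cm d) 3) {γ : Γ}
    (he : Vt L ht (γ₁ • 𝓕₁.σ i (par hv χ χ₁ t) z) = γ • 𝓕.σ j t w) :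
    ∃ θ : Cm d → Cm d, AnalyticAt ℂ θ z ∧ θ z = w ∧
      ∀ᶠ z' in 𝓝 z, Vt L ht (γ₁ • 𝓕₁.σ i (par hv χ χ₁ t) z') = γ • 𝓕.σ j t (θ z') := by
  have hT := h.sub ht
  have hT₁ := (h.sub₁ t ht).2
  obtain ⟨ζ, h1, h2, h3⟩ := sheet_co h.M hT j hw γ
  have hpt : q t (𝓕.σ j t w) = u (q₁ (par hv χ χ₁ t) (𝓕₁.σ i (par hv χ χ₁ t) z)) := by
    rw [← q_smul_of h.M hT γ, ← he, h.Vt_q hL ht, q_smul_of h.M₁ hT₁]
  have hq₁ := H969.K.contMDiffAt_of_slice (h.M₁.hol i _ hT₁ z hz)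
  refine ⟨fun z' => ζ (u (q₁ (par hv χ χ₁ t) (𝓕₁.σ i (par hv χ χ₁ t) z'))), ?_, ?_, ?_⟩
  · rw [hpt] at h1
    have h4 : ContMDiffAt 𝓘(ℂ, Cm d) 𝓘(ℂ, Cm (p + d)) ω
        (fun z' => u (q₁ (par hv χ χ₁ t) (𝓕₁.σ i (par hv χ χ₁ t) z'))) z :=
      ContMDiffAt.comp z (g := u) (h.mu.hol _) hq₁
    have h5 : ContMDiffAt 𝓘(ℂ, Cm d) 𝓘(ℂ, Cm d) ω
        (fun z' => ζ (u (q₁ (par hv χ χ₁ t) (𝓕₁.σ i (par hv χ χ₁ t) z')))) z :=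
      ContMDiffAt.comp z (g := ζ)
        (f := fun z' => u (q₁ (par hv χ χ₁ t) (𝓕₁.σ i (par hv χ χ₁ t) z'))) h1 h4
    exact h5.contDiffAt.analyticAt
  · show ζ (u (q₁ (par hv χ χ₁ t) (𝓕₁.σ i (par hv χ χ₁ t) z))) = w
    rw [← hpt, h2]
  · have hc : Tendsto (fun z' => (t, Vt L ht (γ₁ • 𝓕₁.σ i (par hv χ χ₁ t) z'))) (𝓝 z)
        (𝓝 (t, γ • 𝓕.σ j t w)) := by
      rw [← he]
      have h6 : ContinuousAt (fun z' => γ₁ • 𝓕₁.σ i (par hv χ χ₁ t) z') z :=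
        Sh.contAt_smul (𝓕₁.at _ hT₁) γ₁ i hz
      exact (continuousAt_const.prodMk ((h.Vt_cont hL ht).continuousAt.comp h6)).tendsto
    filter_upwards [hc.eventually h3] with z' a
    have h7 : q t (Vt L ht (γ₁ • 𝓕₁.σ i (par hv χ χ₁ t) z')) =
        u (q₁ (par hv χ χ₁ t) (𝓕₁.σ i (par hv χ χ₁ t) z')) := by
      rw [h.Vt_q hL ht, q_smul_of h.M₁ hT₁]
    rw [← h7]
    exact a

/-- the change of parameters is holomorphic -/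
theorem par_hol (h : IsPr f f₁ u hv 𝓕 q χ 𝓕₁ q₁ χ₁ B) {t : Cm p} (ht : t ∈ B) :
    AnalyticAt ℂ (par hv χ χ₁) t := by
  have h1 : ContMDiffAt 𝓘(ℂ, Cm p) 𝓘(ℂ, Cm p) ω χ.symm t := by
    have h3 := contMDiffOn_symm_of_mem_maximalAtlas (I := 𝓘(ℂ, Cm p)) (n := ω)
      (IsManifold.subset_maximalAtlas h.M.atlas)
    exact h3.contMDiffAt (χ.open_target.mem_nhds (h.M.sub (h.sub ht)))
  have h2 : HolV (Cm p) (χ₁ : Y₁ → Cm p) (inv0 hv (χ.symm t)) :=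
    contMDiffAt_of_mem_maximalAtlas (IsManifold.subset_maximalAtlas h.M₁.atlas) (h.sub₁ t ht).1
  have h3 := holV_of_inv0 hv (h.inv_off ht) h2
  rw [u_inv0 hv] at h3
  have h4 : ContMDiffAt 𝓘(ℂ, Cm p) 𝓘(ℂ, Cm p) ω (par hv χ χ₁) t :=
    ContMDiffAt.comp t (g := fun y => χ₁ (inv0 hv y)) (f := χ.symm) h3 h1
  exact h4.contDiffAt.analyticAt

/-- a function which is locally `Φ ∘ q` is holomorphic in the sheets -/
theorem hol_of_loc (h : IsPr f f₁ u hv 𝓕 q χ 𝓕₁ q₁ χ₁ B) {A : Cm p → E → ℂ} {t : Cm p}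
    (ht : t ∈ B) (i : Fin 𝓕.N) {z : Cm d} (hz : z ∈ ball (0 : Cm d) 3) (γ : Γ)
    (hA : ∃ Φ : X → ℂ, HolV (Cm (p + d)) Φ (q t (γ • 𝓕.σ i t z)) ∧
      ∀ᶠ y in 𝓝 ((⟨t, ht⟩, γ • 𝓕.σ i t z) : Tot B E), A y.1 y.2 = Φ (q y.1 y.2)) :
    AnalyticAt ℂ (fun r : Cm p × Cm d => A r.1 (γ • 𝓕.σ i r.1 r.2)) (t, z) := by
  obtain ⟨Φ, h1, h2⟩ := hA
  have hT := h.sub ht
  rw [q_smul_of h.M hT] at h1
  have h3 : ContMDiffAt 𝓘(ℂ, Cm p × Cm d) 𝓘(ℂ, ℂ) ω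
      (fun r : Cm p × Cm d => Φ (q r.1 (𝓕.σ i r.1 r.2))) (t, z) :=
    ContMDiffAt.comp (t, z) (g := Φ) (f := fun r : Cm p × Cm d => q r.1 (𝓕.σ i r.1 r.2)) h1
      (h.M.hol i t hT z hz)
  refine h3.contDiffAt.analyticAt.congr ?_
  have h4 := eventually_tot h.isOpen h2
  have h5 : Tendsto (fun r : Cm p × Cm d => (r.1, γ • 𝓕.σ i r.1 r.2)) (𝓝 (t, z))
      (𝓝 (t, γ • 𝓕.σ i t z)) := (fam_map_nhds_smul 𝓕 γ i hT hz).le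
  have h6 : ∀ᶠ r : Cm p × Cm d in 𝓝 (t, z), r.1 ∈ B :=
    (continuous_fst.tendsto (t, z)).eventually (h.isOpen.mem_nhds ht)
  filter_upwards [h5.eventually h4, h6] with r a b
  have h7 := a b
  show Φ (q r.1 (𝓕.σ i r.1 r.2)) = A r.1 (γ • 𝓕.σ i r.1 r.2)
  rw [← q_smul_of h.M (h.sub b) γ]
  exact h7.symm

/-- pull back of additive functions -/
theorem add_V {m : ℕ} [(core Γ m).FiniteIndex] [(core Γ₁ m).FiniteIndex]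
    (h : IsPr f f₁ u hv 𝓕 q χ 𝓕₁ q₁ χ₁ B)
    (hL : IsL q (fun t e => q₁ (par hv χ χ₁ t) e) u L) {ρ : Γ₁ ≃* Γ}
    (hρ : ∀ γ x, L (γ • x) = ρ γ • L x) {t : Cm p} (ht : t ∈ B) {k : E → ℂ} {b : core Γ m → ℂ}
    (H : Add (H603.TE.sub (𝓕.at t (h.sub ht)) (core Γ m)) k b) :
    Add (H603.TE.sub (𝓕₁.at _ (h.sub₁ t ht).2) (core Γ₁ m)) (fun e => k (Vt L ht e))
      fun κ => b (res ρ (fun _ => map_core ρ m) κ) where
  hol i z hz := by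
    refine DifferentiableAt.differentiableWithinAt ?_
    obtain ⟨κ, j, w, hw, hκ⟩ := (H603.TE.sub (𝓕.at t (h.sub ht)) (core Γ m)).cover (Vt L ht
      ((H603.TE.sub (𝓕₁.at _ (h.sub₁ t ht).2) (core Γ₁ m)).σ i z))
    have hw3 : w ∈ ball (0 : Cm d) 3 := Sh.mem3 hw
    have he : Vt L ht (rep (core Γ₁ m) (idx (core Γ₁ m) 𝓕₁.N i).2 •
        𝓕₁.σ (idx (core Γ₁ m) 𝓕₁.N i).1 (par hv χ χ₁ t) z) =
        ((κ : Γ) * rep (core Γ m) (idx (core Γ m) 𝓕.N j).2) •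
          𝓕.σ (idx (core Γ m) 𝓕.N j).1 t w := by
      rw [mul_smul]
      exact hκ.symm
    obtain ⟨θ, h1, h2, h3⟩ := h.Vt_hol hL ht hz hw3 he
    have h4 : DifferentiableAt ℂ (fun z => k ((H603.TE.sub (𝓕.at t (h.sub ht)) (core Γ m)).σ j z))
        (θ z) := by
      rw [h2]
      exact (H.hol j).differentiableAt (isOpen_ball.mem_nhds hw3)
    have h5 : DifferentiableAt ℂ (fun z' =>
        k ((H603.TE.sub (𝓕.at t (h.sub ht)) (core Γ m)).σ j (θ z')) + b κ) z :=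
      (DifferentiableAt.comp (g := fun z =>
        k ((H603.TE.sub (𝓕.at t (h.sub ht)) (core Γ m)).σ j z)) z h4 h1.differentiableAt).add_const _
    refine h5.congr_of_eventuallyEq ?_
    filter_upwards [h3] with z' a
    have h6 : Vt L ht ((H603.TE.sub (𝓕₁.at _ (h.sub₁ t ht).2) (core Γ₁ m)).σ i z') =
        κ • (H603.TE.sub (𝓕.at t (h.sub ht)) (core Γ m)).σ j (θ z') := by
      have h7 : Vt L ht (rep (core Γ₁ m) (idx (core Γ₁ m) 𝓕₁.N i).2 •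
        𝓕₁.σ (idx (core Γ₁ m) 𝓕₁.N i).1 (par hv χ χ₁ t) z') = _ := a
      rw [mul_smul] at h7
      exact h7
    have h8 := congrArg k h6
    rw [H.add] at h8
    exact h8
  add κ e := by
    have h1 : Vt L ht (κ • e) = res ρ (fun _ => map_core ρ m) κ • Vt L ht e := by
      have h2 := hρ (κ : Γ₁) (⟨t, ht⟩, e)
      exact congrArg Prod.snd h2
    rw [h1, H.add]

end IsPr

end Vale.Agent.P281.H603.C
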