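import Vale.Agent.P281.H603.C.Tot

/-!
# P281, class C (helper603), block M3: the map of the universal coverings given by a modification
-/

open Set Filter Topology
open scoped ContinuousMap

set_option linter.unusedSectionVars false

noncomputable section

namespace Vale.Agent.P281.H603.C

/-- `u : X₁ → X` is an isomorphism off `e = u⁻¹(N)`. -/
structure Md {X₁ X : Type} [TopologicalSpace X₁] [TopologicalSpace X] (u : X₁ → X) (e : Set X₁)
    (N : Set X) (inv : X → X₁) : Prop where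
  cont : Continuous u
  right : ∀ x, u (inv x) = x
  inj : ∀ z z', u z = u z' → z ∉ e → z = z'
  mem : ∀ z, u z ∈ N ↔ z ∈ e
  eclosed : IsClosed e
  nclosed : IsClosed N
  tend : ∀ z, z ∉ e → Tendsto inv (𝓝 (u z)) (𝓝 z)

variable {P : Type} [NormedAddCommGroup P] [NormedSpace ℝ P] {B : Set P} {X X₁ E E₁ Γ Γ₁ : Type}
  [TopologicalSpace X] [TopologicalSpace X₁] [TopologicalSpace E] [TopologicalSpace E₁]
  [Group Γ] [MulAction Γ E] [Group Γ₁] [MulAction Γ₁ E₁] {Z₀ : Set X} {g : X → P}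
  {q : P → E → X} {q₁ : P → E₁ → X₁} {u : X₁ → X} {e : Set X₁} {N : Set X} {inv : X → X₁}

namespace TotCov

theorem disc' (h : TotCov Γ B Z₀ g q) (x : Tot B E) : ∃ U ∈ 𝓝 x, ∀ (y : Tot B E) (γ : Γ), y ∈ U →
    γ • y ∈ U → γ = 1 := by
  obtain ⟨U, hU, h1⟩ := h.disc _ x.1.2 x.2
  exact ⟨_, tendsto_tot hU, fun y γ hy hγ => h1 y.1 y.2 γ y.1.2 hy hγ⟩

theorem eq_of_smul (h : TotCov Γ B Z₀ g q) {γ γ' : Γ} {x : Tot B E} (he : γ • x = γ' • x) :
    γ = γ' := by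
  have h1 : (γ'⁻¹ * γ) • x = x := by rw [mul_smul, he, inv_smul_smul]
  have h2 : (γ'⁻¹ * γ) • x.2 = x.2 := congrArg Prod.snd h1
  exact (inv_mul_eq_one.1 (h.free x.1.2 h2)).symm

end TotCov

/-- `L` lifts `u` to the universal coverings. -/
structure IsL (q : P → E → X) (q₁ : P → E₁ → X₁) (u : X₁ → X) (L : Tot B E₁ → Tot B E) : Prop where
  cont : Continuous L
  eq : ∀ x, q (L x).1 (L x).2 = u (q₁ x.1 x.2)

theorem exists_L (h : TotCov Γ B Z₀ g q)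
    (h₁ : TotCov Γ₁ B (u ⁻¹' Z₀) (fun z => g (u z)) q₁) (m : Md u e N inv)
    [SimplyConnectedSpace E₁] [LocallyPathConnectedSpace E₁] [ContinuousConstSMul Γ E]
    (hB : Convex ℝ B) (hBo : IsOpen B) (hne : B.Nonempty) :
    ∃ L : Tot B E₁ → Tot B E, IsL q q₁ u L := by
  have i1 : SimplyConnectedSpace (Tot B E₁) := simply hB hne
  have i2 : LocallyPathConnectedSpace (Tot B E₁) := locPathTot hBo
  have hc : Continuous fun x : Tot B E₁ => (⟨u (q₁ x.1 x.2), h₁.mem _ x.1.2 _⟩ : ↥Z₀) := by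
    refine Continuous.subtype_mk ?_ _
    exact m.cont.comp (continuous_subtype_val.comp h₁.continuous_Qm)
  obtain ⟨x₀⟩ : Nonempty (Tot B E₁) := inferInstance
  obtain ⟨y₀, hy₀⟩ := h.surj_Qm ⟨u (q₁ x₀.1 x₀.2), h₁.mem _ x₀.1.2 _⟩
  obtain ⟨L, ⟨-, h2⟩, -⟩ := h.cover.existsUnique_continuousMap_lifts ⟨_, hc⟩ x₀ y₀ hy₀
  exact ⟨L, L.continuous, fun x => congrArg Subtype.val (congrFun h2 x)⟩

namespace IsL

variable {L : Tot B E₁ → Tot B E}

theorem fst (h : TotCov Γ B Z₀ g q)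
    (h₁ : TotCov Γ₁ B (u ⁻¹' Z₀) (fun z => g (u z)) q₁) (hL : IsL q q₁ u L) (x : Tot B E₁) :
    (L x).1 = x.1 := by
  apply Subtype.ext
  rw [← h.time _ (L x).1.2 (L x).2, hL.eq, h₁.time _ x.1.2 x.2]

theorem hom (h : TotCov Γ B Z₀ g q)
    (h₁ : TotCov Γ₁ B (u ⁻¹' Z₀) (fun z => g (u z)) q₁) (hL : IsL q q₁ u L)
    [ContinuousConstSMul Γ E] [ContinuousConstSMul Γ₁ E₁] [PreconnectedSpace (Tot B E₁)]
    [Nonempty (Tot B E₁)] : ∃ ρ : Γ₁ →* Γ, ∀ γ x, L (γ • x) = ρ γ • L x := by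
  have h1 : ∀ γ : Γ₁, ∃ δ : Γ, ∀ x, L (γ • x) = δ • L x := by
    intro γ
    obtain ⟨x₀⟩ : Nonempty (Tot B E₁) := inferInstance
    have h2 : ∀ x, h.Qm (L (γ • x)) = h.Qm (L x) := by
      intro x
      apply Subtype.ext
      show q _ _ = q _ _
      rw [hL.eq, hL.eq]
      exact congrArg u (h₁.q_smul x.1.2 γ x.2)
    obtain ⟨δ, hδ⟩ := h.Qm_eq.1 (h2 x₀).symm
    refine ⟨δ, fun x => ?_⟩
    have h3 : (fun x => L (γ • x)) = fun x => δ • L x := by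
      refine h.cover.eq_of_comp_eq (hL.cont.comp (continuous_const_smul γ))
        (hL.cont.const_smul δ) ?_ x₀ hδ.symm
      funext x
      show h.Qm (L (γ • x)) = h.Qm (δ • L x)
      rw [h2, h.Qm_smul]
    exact congrFun h3 x
  choose ρ hρ using h1
  obtain ⟨x₀⟩ : Nonempty (Tot B E₁) := inferInstance
  refine ⟨MonoidHom.mk' ρ fun γ γ' => ?_, hρ⟩
  refine h.eq_of_smul (x := L x₀) ?_
  rw [← hρ, mul_smul, hρ, hρ, mul_smul]

/-- the local inverse of `L` off `e` -/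
theorem exists_inv (h : TotCov Γ B Z₀ g q)
    (h₁ : TotCov Γ₁ B (u ⁻¹' Z₀) (fun z => g (u z)) q₁) (m : Md u e N inv) (hL : IsL q q₁ u L)
    {x : Tot B E₁} (hx : q₁ x.1 x.2 ∉ e) : ∃ s : Tot B E → Tot B E₁, ContinuousAt s (L x) ∧
      s (L x) = x ∧ ∀ᶠ y in 𝓝 (L x), L (s y) = y := by
  obtain ⟨s₁, a1, a2, a3⟩ := h₁.exists_sec x
  have hmem : ∀ y : Tot B E, inv (q y.1 y.2) ∈ u ⁻¹' Z₀ := fun y => by
    show u (inv (q y.1 y.2)) ∈ Z₀
    rw [m.right]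
    exact h.mem _ y.1.2 _
  have hiv : inv (u (q₁ x.1 x.2)) = q₁ x.1 x.2 := (m.inj _ _ (m.right _).symm hx).symm
  have hq : Tendsto (fun y : Tot B E => q y.1 y.2) (𝓝 (L x)) (𝓝 (u (q₁ x.1 x.2))) := by
    have h2 := (continuous_subtype_val.comp h.continuous_Qm).tendsto (L x)
    have h3 : (Subtype.val ∘ h.Qm) (L x) = u (q₁ x.1 x.2) := hL.eq x
    rw [h3] at h2
    exact h2
  have hc : Tendsto (fun y : Tot B E => inv (q y.1 y.2)) (𝓝 (L x)) (𝓝 (q₁ x.1 x.2)) :=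
    (m.tend _ hx).comp hq
  have hQ : (⟨inv (q (L x).1 (L x).2), hmem (L x)⟩ : ↥(u ⁻¹' Z₀)) = h₁.Qm x := by
    apply Subtype.ext
    show inv (q (L x).1 (L x).2) = q₁ x.1 x.2
    rw [hL.eq, hiv]
  have hc' : ContinuousAt (fun y : Tot B E => (⟨inv (q y.1 y.2), hmem y⟩ : ↥(u ⁻¹' Z₀))) (L x) := by
    rw [Topology.IsInducing.subtypeVal.continuousAt_iff]
    show Tendsto (fun y : Tot B E => inv (q y.1 y.2)) (𝓝 (L x)) (𝓝 (inv (q (L x).1 (L x).2)))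
    rw [hL.eq, hiv]
    exact hc
  have hs : ContinuousAt (fun y : Tot B E => s₁ ⟨inv (q y.1 y.2), hmem y⟩) (L x) := by
    refine ContinuousAt.comp (g := s₁) ?_ hc'
    rw [hQ]
    exact a1
  refine ⟨fun y => s₁ ⟨inv (q y.1 y.2), hmem y⟩, hs, ?_, ?_⟩
  · show s₁ ⟨inv (q (L x).1 (L x).2), hmem (L x)⟩ = x
    rw [hQ, a2]
  · have a3' : ∀ᶠ y in 𝓝 (L x), h₁.Qm (s₁ ⟨inv (q y.1 y.2), hmem y⟩) =
        ⟨inv (q y.1 y.2), hmem y⟩ := by
      have h4 := hc'.tendsto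
      rw [hQ] at h4
      exact h4.eventually a3
    obtain ⟨U, hU, hd⟩ := h.disc' (L x)
    have hLs : ContinuousAt (fun y => L (s₁ ⟨inv (q y.1 y.2), hmem y⟩)) (L x) :=
      ContinuousAt.comp (g := L) hL.cont.continuousAt hs
    have hval : L (s₁ ⟨inv (q (L x).1 (L x).2), hmem (L x)⟩) = L x := by rw [hQ, a2]
    have hU' : ∀ᶠ y in 𝓝 (L x), L (s₁ ⟨inv (q y.1 y.2), hmem y⟩) ∈ U := by
      have h5 := hLs.tendsto
      rw [hval] at h5
      exact h5 hU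
    filter_upwards [a3', hU', hU] with y b1 b2 b3
    have h6 : h.Qm (L (s₁ ⟨inv (q y.1 y.2), hmem y⟩)) = h.Qm y := by
      apply Subtype.ext
      show q _ _ = q y.1 y.2
      rw [hL.eq]
      have h7 : q₁ (s₁ ⟨inv (q y.1 y.2), hmem y⟩).1 (s₁ ⟨inv (q y.1 y.2), hmem y⟩).2 =
        inv (q y.1 y.2) := congrArg Subtype.val b1
      rw [h7, m.right]
    obtain ⟨γ, hγ⟩ := h.Qm_eq.1 h6
    have h7 := hd _ γ b2 (by rw [hγ]; exact b3)
    rw [h7, one_smul] at hγ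
    exact hγ

/-- preimages, up to the group -/
theorem exists_pre (h : TotCov Γ B Z₀ g q)
    (h₁ : TotCov Γ₁ B (u ⁻¹' Z₀) (fun z => g (u z)) q₁) (m : Md u e N inv) (hL : IsL q q₁ u L)
    (y : Tot B E) : ∃ (x : Tot B E₁) (γ : Γ), γ • y = L x := by
  have hmem : inv (q y.1 y.2) ∈ u ⁻¹' Z₀ := by
    show u (inv (q y.1 y.2)) ∈ Z₀
    rw [m.right]
    exact h.mem _ y.1.2 _
  obtain ⟨x, hx⟩ := h₁.surj_Qm ⟨_, hmem⟩
  have h1 : q₁ x.1 x.2 = inv (q y.1 y.2) := congrArg Subtype.val hx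
  have h2 : h.Qm y = h.Qm (L x) := by
    apply Subtype.ext
    show q y.1 y.2 = q _ _
    rw [hL.eq, h1, m.right]
  obtain ⟨γ, hγ⟩ := h.Qm_eq.1 h2
  exact ⟨x, γ, hγ⟩

/-- points with the same image are equivalent -/
theorem exists_eq (h₁ : TotCov Γ₁ B (u ⁻¹' Z₀) (fun z => g (u z)) q₁) (m : Md u e N inv)
    {x x' : Tot B E₁} (hx : u (q₁ x.1 x.2) = u (q₁ x'.1 x'.2)) (he : q₁ x.1 x.2 ∉ e) :
    ∃ γ : Γ₁, γ • x = x' := by
  have h1 := m.inj _ _ hx he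
  exact h₁.Qm_eq.1 (Subtype.ext h1)

/-- `ρ` is surjective -/
theorem surj_hom (h : TotCov Γ B Z₀ g q)
    (h₁ : TotCov Γ₁ B (u ⁻¹' Z₀) (fun z => g (u z)) q₁) (m : Md u e N inv) (hL : IsL q q₁ u L)
    [ContinuousConstSMul Γ E] {ρ : Γ₁ →* Γ} (hρ : ∀ γ x, L (γ • x) = ρ γ • L x)
    (hpre : IsPreconnected {y : Tot B E | q y.1 y.2 ∉ N}) (hne : ∃ x : Tot B E₁, q₁ x.1 x.2 ∉ e) :
    Function.Surjective ρ := by
  have hmem : ∀ x : Tot B E₁, q (L x).1 (L x).2 ∉ N ↔ q₁ x.1 x.2 ∉ e := fun x => by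
    rw [hL.eq, m.mem]
  -- the image of `L`
  have hopen : ∀ x : Tot B E₁, q₁ x.1 x.2 ∉ e → ∀ᶠ y in 𝓝 (L x), ∃ x', L x' = y := by
    intro x hx
    obtain ⟨s, -, -, h3⟩ := hL.exists_inv h h₁ m hx
    exact h3.mono fun y hy => ⟨_, hy⟩
  have key : ∀ y : Tot B E, q y.1 y.2 ∉ N → ∃ x, L x = y := by
    have hO1 : IsOpen {y : Tot B E | ∀ᶠ y' in 𝓝 y, ∃ x, L x = y'} :=
      isOpen_setOfPred_eventually_nhds
    have hO2 : IsOpen {y : Tot B E | ∀ᶠ y' in 𝓝 y, ¬ ∃ x, L x = y'} :=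
      isOpen_setOfPred_eventually_nhds
    have hsub := isPreconnected_iff_subset_of_disjoint.1 hpre _ _ hO1 hO2 ?_ ?_
    · obtain ⟨x₀, hx₀⟩ := hne
      rcases hsub with h1 | h1
      · exact fun y hy => (h1 hy : ∀ᶠ y' in 𝓝 y, ∃ x, L x = y').self_of_nhds
      · exfalso
        have h2 : ∀ᶠ y' in 𝓝 (L x₀), ¬ ∃ x, L x = y' := h1 ((hmem x₀).2 hx₀)
        exact h2.self_of_nhds ⟨x₀, rfl⟩
    · intro y hy
      by_cases hyL : ∃ x, L x = y
      · left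
        obtain ⟨x, rfl⟩ := hyL
        exact hopen x ((hmem x).1 hy)
      · right
        obtain ⟨x, γ, hγ⟩ := hL.exists_pre h h₁ m y
        have hxe : q₁ x.1 x.2 ∉ e := by
          rw [← hmem, ← hγ]
          rw [smul_fst, smul_snd, h.q_smul y.1.2]
          exact hy
        have h3 : ∀ᶠ y' in 𝓝 y, ∃ x', L x' = γ • y' := by
          have h4 := (continuous_const_smul γ : Continuous fun y : Tot B E => γ • y).tendsto y
          rw [hγ] at h4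
          exact h4.eventually (hopen x hxe)
        have h5 : ∀ᶠ y' in 𝓝 y, q y'.1 y'.2 ∉ N := by
          have h6 : Continuous fun y : Tot B E => q y.1 y.2 :=
            continuous_subtype_val.comp h.continuous_Qm
          exact h6.continuousAt.eventually (m.nclosed.isOpen_compl.mem_nhds hy)
        filter_upwards [h3, h5] with y' b1 b2
        rintro ⟨x'', hx''⟩
        obtain ⟨x', hx'⟩ := b1
        have h7 : q₁ x''.1 x''.2 ∉ e := by rw [← hmem, hx'']; exact b2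
        obtain ⟨δ, hδ⟩ := exists_eq (Z₀ := Z₀) (g := g) h₁ m (x := x'') (x' := x') (by
          rw [← hL.eq, ← hL.eq, hx'', hx', smul_fst, smul_snd, h.q_smul y'.1.2]) h7
        have h8 : γ = ρ δ := by
          refine h.eq_of_smul (x := y') ?_
          rw [← hx', ← hδ, hρ, hx'']
        refine hyL ⟨δ⁻¹ • x, ?_⟩
        rw [hρ, ← hγ, h8, map_inv, inv_smul_smul]
    · rw [Set.eq_empty_iff_forall_notMem]
      rintro y ⟨-, h1, h2⟩
      have h1' : ∀ᶠ y' in 𝓝 y, ∃ x, L x = y' := h1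
      have h2' : ∀ᶠ y' in 𝓝 y, ¬ ∃ x, L x = y' := h2
      exact h2'.self_of_nhds h1'.self_of_nhds
  intro γ
  obtain ⟨x₀, hx₀⟩ := hne
  have h1 : q (γ • L x₀).1 (γ • L x₀).2 ∉ N := by
    rw [smul_fst, smul_snd, h.q_smul (L x₀).1.2]
    exact (hmem x₀).2 hx₀
  obtain ⟨x, hx⟩ := key _ h1
  obtain ⟨δ, hδ⟩ := exists_eq (Z₀ := Z₀) (g := g) h₁ m (x := x₀) (x' := x) (by
    rw [← hL.eq, ← hL.eq, hx, smul_fst, smul_snd, h.q_smul (L x₀).1.2]) hx₀
  refine ⟨δ, h.eq_of_smul (x := L x₀) ?_⟩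
  rw [← hρ, hδ, hx]

/-- `L` is surjective -/
theorem surj (h : TotCov Γ B Z₀ g q)
    (h₁ : TotCov Γ₁ B (u ⁻¹' Z₀) (fun z => g (u z)) q₁) (m : Md u e N inv) (hL : IsL q q₁ u L)
    {ρ : Γ₁ →* Γ} (hρ : ∀ γ x, L (γ • x) = ρ γ • L x) (hs : Function.Surjective ρ) :
    Function.Surjective L := by
  intro y
  obtain ⟨x, γ, hγ⟩ := hL.exists_pre h h₁ m y
  obtain ⟨δ, rfl⟩ := hs γ
  exact ⟨δ⁻¹ • x, by rw [hρ, ← hγ, map_inv, inv_smul_smul]⟩

/-- the points off `e` -/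
def Off (B : Set P) (q₁ : P → E₁ → X₁) (e : Set X₁) : Type := {x : Tot B E₁ // q₁ x.1 x.2 ∉ e}

instance : TopologicalSpace (Off B q₁ e) :=
  inferInstanceAs (TopologicalSpace {x : Tot B E₁ // q₁ x.1 x.2 ∉ e})

instance [T2Space E₁] : T2Space (Off B q₁ e) :=
  inferInstanceAs (T2Space {x : Tot B E₁ // q₁ x.1 x.2 ∉ e})

/-- the action of the kernel -/
@[implicit_reducible] def act (h₁ : TotCov Γ₁ B (u ⁻¹' Z₀) (fun z => g (u z)) q₁) (K : Subgroup Γ₁) :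
    MulAction K (Off B q₁ e) where
  smul κ x := ⟨(κ : Γ₁) • x.1, by
    rw [smul_fst, smul_snd, h₁.q_smul x.1.1.2]
    exact x.2⟩
  one_smul x := Subtype.ext (one_smul Γ₁ x.1)
  mul_smul κ κ' x := Subtype.ext (mul_smul (κ : Γ₁) (κ' : Γ₁) x.1)

/-- `L` is a covering off `e` -/
theorem cover (h : TotCov Γ B Z₀ g q)
    (h₁ : TotCov Γ₁ B (u ⁻¹' Z₀) (fun z => g (u z)) q₁) (m : Md u e N inv) (hL : IsL q q₁ u L)
    [ContinuousConstSMul Γ₁ E₁] {ρ : Γ₁ →* Γ} (hρ : ∀ γ x, L (γ • x) = ρ γ • L x)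
    (hs : Function.Surjective ρ) :
    IsCoveringMap fun x : Off B q₁ e =>
      (⟨L x.1, by
        show ¬ (q (L x.1).1 (L x.1).2 ∈ N)
        rw [hL.eq, m.mem]
        exact x.2⟩ : ↥({y : Tot B E | q y.1 y.2 ∈ N}ᶜ)) := by
  letI := act (e := e) h₁ ρ.ker
  have hq : IsQuotientCoveringMap (fun x : Off B q₁ e =>
      (⟨L x.1, by
        show ¬ (q (L x.1).1 (L x.1).2 ∈ N)
        rw [hL.eq, m.mem]
        exact x.2⟩ : ↥({y : Tot B E | q y.1 y.2 ∈ N}ᶜ))) ρ.ker := by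
    set c := fun x : Off B q₁ e =>
      (⟨L x.1, by
        show ¬ (q (L x.1).1 (L x.1).2 ∈ N)
        rw [hL.eq, m.mem]
        exact x.2⟩ : ↥({y : Tot B E | q y.1 y.2 ∈ N}ᶜ)) with hc
    have hcc : Continuous c := (hL.cont.comp continuous_subtype_val).subtype_mk _
    have hcs : Function.Surjective c := by
      rintro ⟨y, hy⟩
      obtain ⟨x, rfl⟩ := hL.surj h h₁ m hρ hs y
      refine ⟨⟨x, ?_⟩, rfl⟩
      intro hx
      apply hy
      show q (L x).1 (L x).2 ∈ N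
      rw [hL.eq, m.mem]
      exact hx
    have hco : IsOpenMap c := by
      rw [isOpenMap_iff_nhds_le]
      rintro ⟨x, hx⟩ W hW
      rw [mem_map] at hW
      obtain ⟨s, a1, a2, a3⟩ := hL.exists_inv h h₁ m hx
      obtain ⟨V, hV, hVW⟩ := mem_nhds_subtype _ _ _ |>.1 hW
      have h4 : s ⁻¹' V ∈ 𝓝 (L x) := a1 (by rw [a2]; exact hV)
      rw [mem_nhds_subtype]
      refine ⟨_, inter_mem h4 a3, ?_⟩
      rintro ⟨y, hy⟩ ⟨hy1, hy2⟩
      have hy2' : L (s y) = y := hy2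
      have hsy : q₁ (s y).1 (s y).2 ∉ e := by
        intro hcon
        apply hy
        show q y.1 y.2 ∈ N
        rw [← hy2', hL.eq, m.mem]
        exact hcon
      have h5 : (⟨s y, hsy⟩ : Off B q₁ e) ∈ c ⁻¹' W := hVW hy1
      have h6 : c ⟨s y, hsy⟩ = ⟨y, hy⟩ := Subtype.ext hy2'
      rw [← h6]
      exact h5
    refine ⟨(IsOpenQuotientMap.mk hcs hcc hco).isQuotientMap, ⟨fun κ => ?_⟩, ?_, ?_⟩
    · refine Continuous.subtype_mk ?_ _
      exact (continuous_const_smul (κ : Γ₁)).comp continuous_subtype_val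
    · intro x x'
      rw [MulAction.mem_orbit_iff]
      constructor
      · intro hxx
        have h1 : L x.1 = L x'.1 := congrArg Subtype.val hxx
        obtain ⟨γ, hγ⟩ := exists_eq (Z₀ := Z₀) (g := g) h₁ m (x := x'.1) (x' := x.1) (by
          rw [← hL.eq, ← hL.eq, h1]) x'.2
        have h2 : ρ γ = 1 := by
          refine h.eq_of_smul (x := L x'.1) ?_
          rw [← hρ, hγ, h1, one_smul]
        exact ⟨⟨γ, h2⟩, Subtype.ext hγ⟩
      · rintro ⟨κ, rfl⟩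
        apply Subtype.ext
        show L ((κ : Γ₁) • x'.1) = L x'.1
        rw [hρ, (MonoidHom.mem_ker).1 κ.2, one_smul]
    · intro x
      obtain ⟨U, hU, hd⟩ := h₁.disc' x.1
      refine ⟨Subtype.val ⁻¹' U, continuous_subtype_val.continuousAt hU, ?_⟩
      rintro κ ⟨y, ⟨z, hz, rfl⟩, hy⟩
      have h3 := hd z.1 (κ : Γ₁) hz hy
      exact Subtype.ext h3
  exact hq.isCoveringMap

/-- **M3**: `ρ` is an isomorphism, and `L` is injective off `e` -/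
theorem bij (hCI : CovInjStmt) {n : ℕ} [T2Space E] [T2Space E₁] [SimplyConnectedSpace (Tot B E)]
    (h : TotCov Γ B Z₀ g q)
    (h₁ : TotCov Γ₁ B (u ⁻¹' Z₀) (fun z => g (u z)) q₁) (m : Md u e N inv) (hL : IsL q q₁ u L)
    [ContinuousConstSMul Γ E] [ContinuousConstSMul Γ₁ E₁] {ρ : Γ₁ →* Γ}
    (hρ : ∀ γ x, L (γ • x) = ρ γ • L x)
    (hch : ∀ z : Tot B E, ∃ φ : OpenPartialHomeomorph (Tot B E) (Fin n → ℂ), z ∈ φ.source ∧
      Thin2 (φ.target ∩ φ.symm ⁻¹' {y : Tot B E | q y.1 y.2 ∈ N}) φ.target)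
    (hpre : IsPreconnected {y : Tot B E | q y.1 y.2 ∉ N})
    (hpre₁ : IsPreconnected {x : Tot B E₁ | q₁ x.1 x.2 ∉ e})
    (hne : ∃ x : Tot B E₁, q₁ x.1 x.2 ∉ e) :
    Function.Bijective ρ ∧ Function.Surjective L ∧
      ∀ x x', L x = L x' → q₁ x.1 x.2 ∉ e → x = x' := by
  have hs := hL.surj_hom h h₁ m hρ hpre hne
  have hP : PreconnectedSpace (Off B q₁ e) := isPreconnected_iff_preconnectedSpace.1 hpre₁
  have hcl : IsClosed {y : Tot B E | q y.1 y.2 ∈ N} := by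
    have h6 : Continuous fun y : Tot B E => q y.1 y.2 :=
      continuous_subtype_val.comp h.continuous_Qm
    exact m.nclosed.preimage h6
  have hinj := hCI n (Tot B E) (Off B q₁ e) {y : Tot B E | q y.1 y.2 ∈ N} hcl hch _
    (hL.cover h h₁ m hρ hs)
  have hLi : ∀ x x', L x = L x' → q₁ x.1 x.2 ∉ e → x = x' := by
    intro x x' hxx hx
    have hx' : q₁ x'.1 x'.2 ∉ e := by
      rw [← m.mem, ← hL.eq, ← hxx, hL.eq, m.mem]
      exact hx
    have h1 := hinj (a₁ := ⟨x, hx⟩) (a₂ := ⟨x', hx'⟩) (Subtype.ext hxx)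
    exact congrArg Subtype.val h1
  refine ⟨⟨?_, hs⟩, hL.surj h h₁ m hρ hs, hLi⟩
  rw [injective_iff_map_eq_one]
  intro γ hγ
  obtain ⟨x, hx⟩ := hne
  have h1 : x = γ • x := hLi x (γ • x) (by rw [hρ, hγ, one_smul]) hx
  refine h₁.eq_of_smul (x := x) ?_
  rw [← h1, one_smul]

end IsL

end Vale.Agent.P281.H603.C
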