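import Vale.Agent.P281.H64.TD.SpecB

/-!
# P281, T-Delta for fibrations in the class C (helper603): statements of the blocks
-/

open Set Filter Metric MeasureTheory Vale.Agent.P281 Vale.Agent.P281.H713 Vale.Agent.P272.K
open Vale.Agent.P281.H64.TU (Tame KTame TameOK)
open scoped Topology ContDiff Manifold ComplexConjugate

noncomputable section

namespace Vale.Agent.P281.H603.C

/-- `A` is relatively closed in `B`, and contained in a countable union of sets which are locally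
contained in submanifolds of codimension two. -/
structure Thin2 {n : ℕ} (A B : Set (Cm n)) : Prop where
  closed : ∀ b ∈ B, b ∉ A → ∀ᶠ x in 𝓝 b, x ∉ A
  cover : ∃ H : ℕ → Set (Cm n), A ∩ B ⊆ ⋃ k, H k ∧ ∀ k, ∀ x ∈ H k, ∃ g : Fin 2 → Cm n → ℂ,
    (∀ a, ContDiffAt ℂ ω (g a) x) ∧
    (Function.Surjective fun (ξ : Cm n) (a : Fin 2) => fderiv ℂ (g a) x ξ) ∧
    ∀ᶠ z in 𝓝 x, z ∈ H k → ∀ a, g a z = 0

/-- **M1a** (general position: the union of the segments from `A` to a segment has Hausdorff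
dimension at most `2 n - 2`; the sets `H k` are locally images of `ℂ^(n-2)`). -/
def TriStmt : Prop :=
  ∀ (n : ℕ) (A B : Set (Cm n)), Thin2 A B → IsOpen B → Convex ℝ B → ∀ a ∈ B, ∀ a' ∈ B,
    (∀ c ∈ segment ℝ a a', c ∉ A) → ∀ b ∈ B, ∀ W ∈ 𝓝 b, ∃ b' ∈ W ∩ B,
      ∀ c ∈ segment ℝ a a', ∀ x ∈ segment ℝ c b', x ∉ A

/-- **M1b**: the complement of `A` in `B` is simply connected. (Section over the star
`{b | segment a b ∩ A = ∅}` by the lifting theorem; two of them agree by `TriStmt`.) -/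
def SecStmt : Prop :=
  ∀ (n : ℕ) (A B : Set (Cm n)), Thin2 A B → IsOpen B → Convex ℝ B → IsPreconnected (B \ A) ∧
    (∀ b ∈ B, ∀ W ∈ 𝓝 b, ∃ b' ∈ W ∩ B, b' ∉ A) ∧
    ∀ (C : Type) [TopologicalSpace C] [T2Space C] (c : C → ↥(B \ A)), IsCoveringMap c →
      ∀ x : C, ∃ s : C(↥(B \ A), C), (∀ b, c (s b) = b) ∧ s (c x) = x

/-- **M2**: a connected covering of the complement of a closed set `N` of codimension two in a
simply connected manifold is trivial (`P211.HK.LocSys` for the germs of sections off `N`). -/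
def CovInjStmt : Prop :=
  ∀ (n : ℕ) (M C : Type) [TopologicalSpace M] [T2Space M] [SimplyConnectedSpace M]
    [TopologicalSpace C] [T2Space C] [PreconnectedSpace C] (N : Set M), IsClosed N →
    (∀ z : M, ∃ φ : OpenPartialHomeomorph M (Cm n), z ∈ φ.source ∧
      Thin2 (φ.target ∩ φ.symm ⁻¹' N) φ.target) →
    ∀ (c : C → ↥(Nᶜ)), IsCoveringMap c → Function.Injective c

/-- The slices `q` of `X`, whose local liftings to `X₁` satisfy `|ξ|² ≤ K |dq₁ ξ|²_w`. -/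
def MTame {n d : ℕ} {X X₁ : Type} [TopologicalSpace X] [TopologicalSpace X₁]
    [ChartedSpace (Cm n) X] [ChartedSpace (Cm n) X₁] (u : X₁ → X)
    (w : Chart n X₁ → Cm n → Matrix (Fin n) (Fin n) ℂ) : Tame (Cm d) X := fun K q v₀ r =>
  ∀ v ∈ ball v₀ r, ∀ q₁ : Cm d → X₁, ContMDiffAt 𝓘(ℂ, Cm d) 𝓘(ℂ, Cm n) ω q₁ v →
    (∀ᶠ s in 𝓝 v, u (q₁ s) = q s) →
    Function.Bijective (mfderiv 𝓘(ℂ, Cm n) 𝓘(ℂ, Cm n) u (q₁ v)) →
    ∀ e : Chart n X₁, At e (q₁ v) → ∀ ξ : Cm d,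
    ‖ξ‖ ^ 2 ≤ K * (∑ i, ∑ j, w e (e (q₁ v)) i j * fderiv ℂ (fun s => e (q₁ s)) v ξ i *
      conj (fderiv ℂ (fun s => e (q₁ s)) v ξ j)).re

/-- **M5** (as `H383.U.tameOK`; compactness of `X₁`, or of the preimages of compact sets). -/
def MTameOKStmt : Prop :=
  ∀ (n d : ℕ) (X X₁ : Type) [TopologicalSpace X] [T2Space X] [ChartedSpace (Cm n) X]
    [IsManifold 𝓘(ℂ, Cm n) ω X] [TopologicalSpace X₁] [T2Space X₁] [CompactSpace X₁]
    [ChartedSpace (Cm n) X₁] [IsManifold 𝓘(ℂ, Cm n) ω X₁] (u : X₁ → X)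
    (w : Chart n X₁ → Cm n → Matrix (Fin n) (Fin n) ℂ),
    ContMDiff 𝓘(ℂ, Cm n) 𝓘(ℂ, Cm n) ω u → IsHermitian w →
    TameOK (n := n) (MTame (d := d) u w)

end Vale.Agent.P281.H603.C
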