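import Vale.Agent.P281.H64.TW.StatQ

/-!
# P281, class C: definitions for the statement on fibrations of manifolds in Fujiki's class
-/

open Set
open Vale.Agent.P281 Vale.Agent.P281.H713.TZ.S
open Vale.Agent.P281.H511.Surf (IsFibration IsFibre)
open Vale.Agent.P281.H64.Thin (IsThinSet)
open Vale.Agent.P281.H64.StatV (Kahler GaussRank IsGen IsCover)
open scoped Manifold ContDiff Topology

noncomputable section

namespace Vale.Agent.P281.H603.StatC

/-- `X` has a proper modification by a Kähler manifold `X₁` (that is, if `X` is compact: `X` is in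
Fujiki's class `C`; for instance `X` is a Moishezon manifold, or Kähler, `X₁ = X`). -/
def InClassC (n : ℕ) (X : Type) [TopologicalSpace X] [ChartedSpace (Cm n) X] : Prop :=
  ∃ (X₁ : Type) (_ : TopologicalSpace X₁) (_ : ChartedSpace (Cm n) X₁) (u : X₁ → X),
    IsModif (Cm n) u ∧ Kahler n X₁

/-- For the fibres `F` of `f` over the points of `Y` off countably many thin closed sets `H_j`, and
all their finite étale coverings `F'`: `κ(X, K_X + Δ) ≥ r + k` if the Gauss map of `F'` has rank at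
least `r`, and `κ(X, K_X + Δ) ≥ κ(F, K_F + Δ|F) + k` if, moreover, `κ(F, K_F + Δ|F) ≤ r` (for instance
if `r = d`), or if `F'` is immersed in a complex torus (for instance if `F'` is a complex torus). -/
def ForFibres (n p d : ℕ) {X Y : Type} [TopologicalSpace X] [ChartedSpace (Cm n) X]
    [TopologicalSpace Y] [ChartedSpace (Cm p) Y] (f : X → Y) (Δ : Set X → ℝ)
    (k : WithBot ℕ∞) : Prop :=
  ∃ H : ℕ → Set Y, (∀ j, IsThinSet (Cm p) (H j)) ∧ ∀ y, (∀ j, y ∉ H j) →
    ∀ (F F' : Type) [TopologicalSpace F] [T2Space F] [ChartedSpace (Cm d) F] (i : F → X)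
      [TopologicalSpace F'] [ChartedSpace (Cm d) F'] (π : F' → F),
      IsFibre (Cm n) (Cm d) f y i → IsCover d π →
      (∀ r : ℕ, GaussRank d F' r → ((r : ℕ∞) : WithBot ℕ∞) + k ≤ kodX (Cm n) Δ) ∧
      ((IsGen d F' ∨
          ∃ r : ℕ, GaussRank d F' r ∧ kodR (Cm n) (Cm d) i Δ ≤ ((r : ℕ∞) : WithBot ℕ∞)) →
        kodR (Cm n) (Cm d) i Δ + k ≤ kodX (Cm n) Δ)

end Vale.Agent.P281.H603.StatC
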