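import Vale.Agent.P281.H603.C.Stat
import Vale.Agent.P281.H603.C.TEFin
import Vale.Agent.P281.H64.TV.Fin

/-!
# P281, class C (helper603): the theorem on fibrations of manifolds in Fujiki's class
-/

open Set
open Vale.Agent.P281 Vale.Agent.P281.H713.TZ.S
open Vale.Agent.P281.H511.Surf (IsFibration IsFibre)
open Vale.Agent.P281.H64
open Vale.Agent.P281.H64.Thin (IsThinSet)
open Vale.Agent.P281.H64.StatV (Kahler GaussRank IsGen IsCover isCover_iff thin_union)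
open scoped Manifold ContDiff Topology

noncomputable section

namespace Vale.Agent.P281.H603.StatC

theorem ForFibres.mono {n p d : ℕ} {X Y : Type} [TopologicalSpace X] [ChartedSpace (Cm n) X]
    [TopologicalSpace Y] [ChartedSpace (Cm p) Y] {f : X → Y} {Δ : Set X → ℝ}
    {a b : WithBot ℕ∞} (h : ForFibres n p d f Δ b) (hab : a ≤ b) : ForFibres n p d f Δ a := by
  obtain ⟨H, hH, hmain⟩ := h
  refine ⟨H, hH, fun y hy F F' _ _ _ i _ _ π hi hπ => ⟨fun r hr => ?_, fun hc => ?_⟩⟩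
  · exact (add_le_add le_rfl hab).trans ((hmain y hy F F' i π hi hπ).1 r hr)
  · exact (add_le_add le_rfl hab).trans ((hmain y hy F F' i π hi hπ).2 hc)

/-- `κ(f | Δ) ≤ kodF f Δ` if `f` has a good model -/
theorem kap_le_kodF {n p : ℕ} {X Y : Type} [tX : TopologicalSpace X] [cX : ChartedSpace (Cm n) X]
    [tY : TopologicalSpace Y] [cY : ChartedSpace (Cm p) Y] {f : X → Y} {Δ : Set X → ℝ}
    (hf : IsFibration (Cm n) (Cm p) f Δ) (h : TW.HasNeatModel n p f Δ) :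
    kap (Cm n) (Cm p) ⟨X, Y, tX, tY, cX, cY, f, Δ⟩ ≤ kodF n p Δ (id : X → X) f := by
  obtain ⟨X₁, Y₁, _, _, _, _, f₁, Δ₁, ⟨h₁, hs⟩, he⟩ := h
  exact (H303.TE.kap_le_model h₁ hs he).trans (StatV.step _ _ _ _ _ _ _ _ _ _ hf h₁ hs)

/-- the inequality with `k = kodF f` -/
theorem forFibres {p d : ℕ} (hd : 0 < d) {X Y : Type} [tX : TopologicalSpace X]
    [cX : ChartedSpace (Cm (p + d)) X] [tY : TopologicalSpace Y] [cY : ChartedSpace (Cm p) Y]
    (f : X → Y) (Δ : Set X → ℝ) (hf : IsFibration (Cm (p + d)) (Cm p) f Δ)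
    (hX : InClassC (p + d) X) :
    ForFibres (p + d) p d f Δ (kodF (p + d) p Δ (id : X → X) f) := by
  obtain ⟨H, hH, hmain⟩ := teCF f Δ hd hf hX
  obtain ⟨H', hH', hmain'⟩ := H383.C.tudC p d X Y f Δ hd hf hX
  obtain ⟨K, hK, hKy⟩ := thin_union hH hH'
  have hman := hf.manifold.1
  refine ⟨K, hK, fun y hy F F' _ _ _ i _ _ π hi hπ => ?_⟩
  obtain ⟨h1, h2⟩ := hKy y hy
  have hT := hπ.1
  have hc := isCover_iff.1 hπ
  have key : ∀ r : ℕ, GaussRank d F' r → ((r : ℕ∞) : WithBot ℕ∞) +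
      kodF (p + d) p Δ (id : X → X) f ≤ kodX (Cm (p + d)) Δ := fun r hr =>
    (hmain y h1 F' (fun t => i (π t)) (hc.fibre hi)).1 r hr
  refine ⟨key, ?_⟩
  rintro (h3 | ⟨r, h3, h4⟩)
  · exact hmain' y h2 F i hi ⟨F', _, hT, _, fun t => i (π t), hc.fibre hi, h3⟩
  · exact (add_le_add h4 le_rfl).trans (key r h3)

/-- **The theorem** -/
theorem main {p d : ℕ} (hd : 0 < d) {X Y : Type} [tX : TopologicalSpace X]
    [cX : ChartedSpace (Cm (p + d)) X] [tY : TopologicalSpace Y] [cY : ChartedSpace (Cm p) Y]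
    (f : X → Y) (Δ : Set X → ℝ) (hf : IsFibration (Cm (p + d)) (Cm p) f Δ)
    (hX : InClassC (p + d) X) :
    ForFibres (p + d) p d f Δ (kodF (p + d) p Δ (id : X → X) f) ∧
      KapLe (Cm (p + d)) (Cm p) f Δ (kodF (p + d) p Δ (id : X → X) f) ∧
      (TW.HasNeatModel (p + d) p f Δ → ForFibres (p + d) p d f Δ
        (kap (Cm (p + d)) (Cm p) ⟨X, Y, tX, tY, cX, cY, f, Δ⟩)) := by
  have h := forFibres hd f Δ hf hX
  exact ⟨h, H364.Gen.kapLe_of H303.UF.crit H383.Gen.compl H364.Gen.compStmt hf,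
    fun hN => h.mono (kap_le_kodF hf hN)⟩

end Vale.Agent.P281.H603.StatC
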