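import Mathlib.Topology.Covering.Quotient
import Mathlib.Topology.Homotopy.Lifting
import Mathlib.Topology.Homotopy.Contractible
import Mathlib.Analysis.Convex.Contractible
import Mathlib.AlgebraicTopology.FundamentalGroupoid.SimplyConnected
import Vale.Agent.P281.H603.C.Spec

/-!
# P281, class C (helper603), block M3: the total spaces of the universal coverings, and their maps
-/

open Set Filter Topology
open scoped ContinuousMap

set_option linter.unusedSectionVars false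

noncomputable section

namespace Vale.Agent.P281.H603.C

section tot

variable {P : Type} [NormedAddCommGroup P] [NormedSpace ℝ P] {B : Set P} {E Γ : Type}

/-- the total space `B × E` -/
def Tot (B : Set P) (E : Type) : Type := ↥B × E

instance [TopologicalSpace E] : TopologicalSpace (Tot B E) :=
  inferInstanceAs (TopologicalSpace (↥B × E))

instance [TopologicalSpace E] [T2Space E] : T2Space (Tot B E) :=
  inferInstanceAs (T2Space (↥B × E))

instance [Group Γ] [MulAction Γ E] : MulAction Γ (Tot B E) where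
  smul γ x := (x.1, γ • x.2)
  one_smul x := Prod.ext rfl (one_smul Γ x.2)
  mul_smul γ γ' x := Prod.ext rfl (mul_smul γ γ' x.2)

theorem smul_fst [Group Γ] [MulAction Γ E] (γ : Γ) (x : Tot B E) : (γ • x).1 = x.1 := rfl

theorem smul_snd [Group Γ] [MulAction Γ E] (γ : Γ) (x : Tot B E) : (γ • x).2 = γ • x.2 := rfl

instance [TopologicalSpace E] [Group Γ] [MulAction Γ E] [ContinuousConstSMul Γ E] :
    ContinuousConstSMul Γ (Tot B E) where
  continuous_const_smul γ := by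
    show Continuous fun x : ↥B × E => ((x.1, γ • x.2) : ↥B × E)
    exact continuous_fst.prodMk ((continuous_const_smul γ).comp continuous_snd)

theorem simply (hB : Convex ℝ B) (hne : B.Nonempty) [TopologicalSpace E] [SimplyConnectedSpace E] :
    SimplyConnectedSpace (Tot B E) := by
  have h1 : ContractibleSpace ↥B := hB.contractibleSpace hne
  obtain ⟨e⟩ := ContractibleSpace.hequiv_unit ↥B
  have h2 : (↥B × E) ≃ₕ (Unit × E) := e.prodCongr (ContinuousMap.HomotopyEquiv.refl E)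
  have h3 : (Unit × E) ≃ₕ E := (Homeomorph.punitProd E).toHomotopyEquiv
  exact (h2.trans h3).simplyConnectedSpace

theorem locPathTot (hB : IsOpen B) [TopologicalSpace E] [LocallyPathConnectedSpace E] :
    LocallyPathConnectedSpace (Tot B E) := by
  have h1 : LocallyPathConnectedSpace ↥B := hB.locallyPathConnectedSpace
  exact inferInstanceAs (LocallyPathConnectedSpace (↥B × E))

/-- neighbourhoods in the total space -/
theorem tendsto_tot [TopologicalSpace E] {x : Tot B E} :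
    Tendsto (fun y : Tot B E => ((y.1 : P), y.2)) (𝓝 x) (𝓝 ((x.1 : P), x.2)) := by
  have : Continuous fun y : ↥B × E => ((y.1 : P), y.2) :=
    (continuous_subtype_val.comp continuous_fst).prodMk continuous_snd
  exact this.tendsto x

end tot

/-- `q t : E → g⁻¹(t)` are coverings with group `Γ`, over the open set `Z₀` of `Z`. -/
structure TotCov {P Z E : Type} [TopologicalSpace P] [TopologicalSpace Z] [TopologicalSpace E]
    (Γ : Type) [Group Γ] [MulAction Γ E] (B : Set P) (Z₀ : Set Z) (g : Z → P) (q : P → E → Z) :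
    Prop where
  mem : ∀ t ∈ B, ∀ e, q t e ∈ Z₀
  time : ∀ t ∈ B, ∀ e, g (q t e) = t
  maps : ∀ x ∈ Z₀, g x ∈ B
  eq : ∀ t ∈ B, ∀ e e', q t e = q t e' ↔ ∃ γ : Γ, γ • e = e'
  surj : ∀ x ∈ Z₀, ∃ e, q (g x) e = x
  cont : ∀ t ∈ B, ∀ e, ContinuousAt (fun p : P × E => q p.1 p.2) (t, e)
  sec : ∀ t ∈ B, ∀ e, ∃ s : Z → E, ContinuousAt s (q t e) ∧ s (q t e) = e ∧
    ∀ᶠ x in 𝓝 (q t e), q (g x) (s x) = x
  gcont : ∀ x ∈ Z₀, ContinuousAt g x
  disc : ∀ t ∈ B, ∀ e : E, ∃ U ∈ 𝓝 (t, e), ∀ (t' : P) (e' : E) (γ : Γ), t' ∈ B → (t', e') ∈ U →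
    (t', γ • e') ∈ U → γ = 1

namespace TotCov

variable {P : Type} [NormedAddCommGroup P] [NormedSpace ℝ P] {B : Set P} {Z E Γ : Type}
  [TopologicalSpace Z] [TopologicalSpace E] [Group Γ] [MulAction Γ E] {Z₀ : Set Z} {g : Z → P}
  {q : P → E → Z}

theorem free (h : TotCov Γ B Z₀ g q) {t : P} (ht : t ∈ B) {γ : Γ} {e : E} (he : γ • e = e) :
    γ = 1 := by
  obtain ⟨U, hU, h1⟩ := h.disc t ht e
  exact h1 t e γ ht (mem_of_mem_nhds hU) (by rw [he]; exact mem_of_mem_nhds hU)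

theorem q_smul (h : TotCov Γ B Z₀ g q) {t : P} (ht : t ∈ B) (γ : Γ) (e : E) :
    q t (γ • e) = q t e := ((h.eq t ht e (γ • e)).2 ⟨γ, rfl⟩).symm

/-- the covering of the total space -/
def Qm (h : TotCov Γ B Z₀ g q) (x : Tot B E) : ↥Z₀ := ⟨q x.1 x.2, h.mem _ x.1.2 _⟩

theorem Qm_val (h : TotCov Γ B Z₀ g q) (x : Tot B E) : (h.Qm x : Z) = q x.1 x.2 := rfl

theorem continuous_Qm (h : TotCov Γ B Z₀ g q) : Continuous h.Qm := by
  refine Continuous.subtype_mk ?_ _
  rw [continuous_iff_continuousAt]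
  intro x
  exact (h.cont _ x.1.2 x.2).tendsto.comp tendsto_tot

theorem Qm_smul (h : TotCov Γ B Z₀ g q) (γ : Γ) (x : Tot B E) : h.Qm (γ • x) = h.Qm x :=
  Subtype.ext (h.q_smul x.1.2 γ x.2)

theorem Qm_eq (h : TotCov Γ B Z₀ g q) {x y : Tot B E} : h.Qm x = h.Qm y ↔ ∃ γ : Γ, γ • x = y := by
  constructor
  · intro he
    have h1 : q x.1 x.2 = q y.1 y.2 := congrArg Subtype.val he
    have h2 : (x.1 : P) = y.1 := by
      rw [← h.time _ x.1.2 x.2, ← h.time _ y.1.2 y.2, h1]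
    rw [← h2] at h1
    obtain ⟨γ, hγ⟩ := (h.eq _ x.1.2 _ _).1 h1
    exact ⟨γ, Prod.ext (Subtype.ext h2) hγ⟩
  · rintro ⟨γ, rfl⟩
    exact (h.Qm_smul γ x).symm

theorem surj_Qm (h : TotCov Γ B Z₀ g q) : Function.Surjective h.Qm := by
  rintro ⟨x, hx⟩
  obtain ⟨e, he⟩ := h.surj x hx
  exact ⟨(⟨g x, h.maps x hx⟩, e), Subtype.ext he⟩

/-- local sections -/
theorem exists_sec (h : TotCov Γ B Z₀ g q) (x : Tot B E) :
    ∃ s : ↥Z₀ → Tot B E, ContinuousAt s (h.Qm x) ∧ s (h.Qm x) = x ∧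
      ∀ᶠ z in 𝓝 (h.Qm x), h.Qm (s z) = z := by
  obtain ⟨s, h1, h2, h3⟩ := h.sec _ x.1.2 x.2
  have hval : ContinuousAt (Subtype.val : ↥Z₀ → Z) (h.Qm x) := continuous_subtype_val.continuousAt
  have hg : ContinuousAt (fun z : ↥Z₀ => (⟨g z, h.maps z z.2⟩ : ↥B)) (h.Qm x) := by
    rw [Topology.IsInducing.subtypeVal.continuousAt_iff]
    exact ContinuousAt.comp (g := g) (h.gcont _ (h.Qm x).2) hval
  refine ⟨fun z => (⟨g z, h.maps z z.2⟩, s z), ?_, ?_, ?_⟩
  · exact hg.prodMk (ContinuousAt.comp (g := s) h1 hval)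
  · exact Prod.ext (Subtype.ext (h.time _ x.1.2 x.2)) h2
  · filter_upwards [hval.eventually h3] with z hz
    exact Subtype.ext hz

theorem isOpenMap_Qm (h : TotCov Γ B Z₀ g q) : IsOpenMap h.Qm := by
  rw [isOpenMap_iff_nhds_le]
  intro x W hW
  rw [mem_map] at hW
  obtain ⟨s, h1, h2, h3⟩ := h.exists_sec x
  have h4 : s ⁻¹' (h.Qm ⁻¹' W) ∈ 𝓝 (h.Qm x) := h1 (by rw [h2]; exact hW)
  filter_upwards [h4, h3] with z hz hz'
  have h5 : h.Qm (s z) ∈ W := hz
  rwa [hz'] at h5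

theorem quot (h : TotCov Γ B Z₀ g q) [ContinuousConstSMul Γ E] :
    IsQuotientCoveringMap h.Qm Γ where
  toIsQuotientMap := (IsOpenQuotientMap.mk h.surj_Qm h.continuous_Qm h.isOpenMap_Qm).isQuotientMap
  continuous_const_smul := continuous_const_smul
  apply_eq_iff_mem_orbit := by
    intro x y
    rw [h.Qm_eq, MulAction.mem_orbit_iff]
    constructor
    · rintro ⟨γ, rfl⟩
      exact ⟨γ⁻¹, inv_smul_smul γ x⟩
    · rintro ⟨γ, rfl⟩
      exact ⟨γ⁻¹, inv_smul_smul γ y⟩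
  disjoint := by
    intro x
    obtain ⟨U, hU, h1⟩ := h.disc _ x.1.2 x.2
    refine ⟨_, tendsto_tot hU, ?_⟩
    rintro γ ⟨y, ⟨z, hz, rfl⟩, hy⟩
    exact h1 z.1 z.2 γ z.1.2 hz hy

theorem cover (h : TotCov Γ B Z₀ g q) [ContinuousConstSMul Γ E] : IsCoveringMap h.Qm :=
  h.quot.isCoveringMap

end TotCov

end Vale.Agent.P281.H603.C
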